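import Vale.Agent.P146.H585.NeUn

/-!
# P146: the near end in the ensemble `U`, the step in real numbers

`d_abs`: the error of the linear identity in the units `h2 √h2`; `c3_abs`: the error of the row
equation; `ne_abs`: the right side of the near end inequality is smaller than the left side.
-/

namespace Vale.Agent.P146.H757

open Vale.Agent.P146.H585.U

/-- the error of the linear identity in the units `h2 √h2` -/
theorem d_abs {K ε κ h2 η r0 gg m c cS st q' X U : ℝ}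
    (hK : 1 ≤ K) (hε : 0 < ε) (hκ : 1 ≤ κ) (hh : 0 < h2)
    (hη0 : 0 ≤ η) (hη1 : η ≤ 1 / 2) (hr0 : |r0| + 1 ≤ 2 * K) (hgg : 0 ≤ gg) (hm : 0 < m)
    (hc : 0 ≤ c) (hcU : c ≤ U) (hcS : 0 ≤ cS) (hcSU : cS ≤ U) (hUκ : U ^ 2 ≤ κ * h2)
    (hst : 0 ≤ st) (hst1 : st ≤ h2) (hq0 : 0 ≤ q') (hq : q' ≤ K * √h2) (hX : 0 ≤ X)
    (E1 : κ / √m ≤ ε * h2) (E2 : κ * gg ≤ ε * h2) (E3 : K * st ≤ (ε * h2) ^ 2 * √h2)
    (E4 : κ * X ≤ (ε * h2) ^ 2) :
    (√(8 * (1 + η) ^ 2 * c / m) + gg * √cS + (|r0| + 1) * (1 + η) * √st) * √q' +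
      √X * √(2 * cS ^ 2 + 2 * st) ≤ 11 * K * (ε * (h2 * √h2)) := by
  obtain ⟨r, hr⟩ : ∃ r, r = √h2 := ⟨_, rfl⟩
  rw [← hr] at hq E3 ⊢
  have hr0' : 0 < r := by rw [hr]; exact Real.sqrt_pos.2 hh
  have hr2 : r * r = h2 := by rw [hr]; exact Real.mul_self_sqrt hh.le
  obtain ⟨h3, hh3⟩ : ∃ h3, h3 = h2 * r := ⟨_, rfl⟩
  rw [← hh3]
  have h30 : 0 < h3 := by rw [hh3]; exact mul_pos hh hr0'
  have hK0 : 0 < K := by linarith
  have hU0 : 0 ≤ U := hc.trans hcU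
  have hκ0 : 0 < κ := by linarith
  have hsκ1 : 1 ≤ √κ := by rw [← Real.sqrt_one]; exact Real.sqrt_le_sqrt hκ
  have hsκ : √κ * √κ = κ := Real.mul_self_sqrt hκ0.le
  have hUr : U ≤ √κ * r := by
    rw [hr, ← Real.sqrt_mul hκ0.le]
    exact Real.le_sqrt_of_sq_le hUκ
  have hκκ : √κ ≤ κ ^ 2 := by
    calc √κ = √κ * 1 := (mul_one _).symm
      _ ≤ √κ * √κ := mul_le_mul_of_nonneg_left hsκ1 (Real.sqrt_nonneg _)
      _ = κ := hsκ
      _ = κ * 1 := (mul_one _).symm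
      _ ≤ κ * κ := mul_le_mul_of_nonneg_left hκ hκ0.le
      _ = _ := (sq κ).symm
  have hK2 : K ≤ K ^ 2 := by
    calc K = K * 1 := (mul_one K).symm
      _ ≤ K * K := mul_le_mul_of_nonneg_left hK hK0.le
      _ = _ := (sq K).symm
  -- the product of U and q'
  have hUq : U * q' ≤ K * (κ * r) ^ 2 := by
    calc U * q' ≤ (√κ * r) * (K * r) := mul_le_mul hUr hq hq0 (by positivity)
      _ = √κ * (K * (r * r)) := by ring
      _ ≤ κ ^ 2 * (K * (r * r)) := mul_le_mul_of_nonneg_right hκκ (by positivity)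
      _ = _ := by ring
  have t1 : √(8 * (1 + η) ^ 2 * c / m) * √q' ≤ 5 * K * (ε * h3) := by
    have hsm : 0 < √m := Real.sqrt_pos.2 hm
    rw [← Real.sqrt_mul (by positivity)]
    have f2 : 8 * (1 + η) ^ 2 ≤ 18 := by
      have : (1 + η) ^ 2 ≤ (3 / 2) ^ 2 := pow_le_pow_left₀ (by positivity) (by linarith) 2
      linarith
    have f3 : 8 * (1 + η) ^ 2 * c ≤ 18 * U := mul_le_mul f2 hcU hc (by norm_num)
    have f1 : 8 * (1 + η) ^ 2 * c / m * q' ≤ (5 * K * (κ / √m * r)) ^ 2 := by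
      calc 8 * (1 + η) ^ 2 * c / m * q' ≤ 18 * U / m * q' := by gcongr
        _ = 18 * (U * q') / m := by ring
        _ ≤ 18 * (K * (κ * r) ^ 2) / m := by gcongr
        _ ≤ 25 * (K ^ 2 * (κ * r) ^ 2) / m := by
            apply div_le_div_of_nonneg_right _ hm.le
            have g1 : K * (κ * r) ^ 2 ≤ K ^ 2 * (κ * r) ^ 2 :=
              mul_le_mul_of_nonneg_right hK2 (sq_nonneg _)
            have g2 : 0 ≤ K ^ 2 * (κ * r) ^ 2 := by positivity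
            linarith
        _ = 25 * (K ^ 2 * (κ * r) ^ 2) / (√m ^ 2) := by rw [Real.sq_sqrt hm.le]
        _ = (5 * K * (κ / √m * r)) ^ 2 := by
            field_simp
            ring
    calc √(8 * (1 + η) ^ 2 * c / m * q') ≤ √((5 * K * (κ / √m * r)) ^ 2) := Real.sqrt_le_sqrt f1
      _ = 5 * K * (κ / √m * r) := Real.sqrt_sq (by positivity)
      _ ≤ 5 * K * ((ε * h2) * r) := by gcongr
      _ = _ := by rw [hh3]; ring
  have t2 : gg * √cS * √q' ≤ K * (ε * h3) := by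
    rw [mul_assoc, ← Real.sqrt_mul hcS]
    have f1 : cS * q' ≤ (K * (κ * r)) ^ 2 := by
      calc cS * q' ≤ U * q' := mul_le_mul_of_nonneg_right hcSU hq0
        _ ≤ K * (κ * r) ^ 2 := hUq
        _ ≤ K ^ 2 * (κ * r) ^ 2 := mul_le_mul_of_nonneg_right hK2 (sq_nonneg _)
        _ = _ := by ring
    calc gg * √(cS * q') ≤ gg * √((K * (κ * r)) ^ 2) :=
          mul_le_mul_of_nonneg_left (Real.sqrt_le_sqrt f1) hgg
      _ = gg * (K * (κ * r)) := by rw [Real.sqrt_sq (by positivity)]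
      _ = K * ((κ * gg) * r) := by ring
      _ ≤ K * ((ε * h2) * r) := by gcongr
      _ = _ := by rw [hh3]; ring
  have t3 : (|r0| + 1) * (1 + η) * √st * √q' ≤ 3 * K * (ε * h3) := by
    rw [mul_assoc _ (√st), ← Real.sqrt_mul hst]
    have h1 : 0 ≤ |r0| + 1 := by positivity
    have h2' : st * q' ≤ (ε * h3) ^ 2 := by
      calc st * q' ≤ st * (K * r) := mul_le_mul_of_nonneg_left hq hst
        _ = (K * st) * r := by ring
        _ ≤ ((ε * h2) ^ 2 * r) * r := mul_le_mul_of_nonneg_right E3 hr0'.le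
        _ = _ := by rw [hh3]; ring
    have h3' : √(st * q') ≤ ε * h3 := by
      calc √(st * q') ≤ √((ε * h3) ^ 2) := Real.sqrt_le_sqrt h2'
        _ = _ := Real.sqrt_sq (by positivity)
    have hη2 : 1 + η ≤ 3 / 2 := by linarith
    calc (|r0| + 1) * (1 + η) * √(st * q') ≤ (2 * K) * (3 / 2) * (ε * h3) := by gcongr
      _ = _ := by ring
  have g1 : 2 * cS ^ 2 + 2 * st ≤ (2 * (√κ * r)) ^ 2 := by
    have a1 : cS ^ 2 ≤ (√κ * r) ^ 2 := pow_le_pow_left₀ hcS (hcSU.trans hUr) 2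
    have a2 : (√κ * r) ^ 2 = κ * h2 := by
      calc (√κ * r) ^ 2 = (√κ * √κ) * (r * r) := by ring
        _ = _ := by rw [hsκ, hr2]
    have a3 : 1 * h2 ≤ κ * h2 := mul_le_mul_of_nonneg_right hκ hh.le
    have a4 : (2 * (√κ * r)) ^ 2 = 4 * (√κ * r) ^ 2 := by ring
    rw [a4]
    linarith
  have t4 : √X * √(2 * cS ^ 2 + 2 * st) ≤ 2 * (ε * h3) := by
    have g2 : √(2 * cS ^ 2 + 2 * st) ≤ 2 * (√κ * r) := by
      rw [← Real.sqrt_sq (show 0 ≤ 2 * (√κ * r) by positivity)]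
      exact Real.sqrt_le_sqrt g1
    have g3 : √X * √κ ≤ ε * h2 := by
      rw [← Real.sqrt_mul hX, ← Real.sqrt_sq (show 0 ≤ ε * h2 by positivity)]
      exact Real.sqrt_le_sqrt (by linarith [mul_comm X κ])
    calc √X * √(2 * cS ^ 2 + 2 * st) ≤ √X * (2 * (√κ * r)) :=
          mul_le_mul_of_nonneg_left g2 (Real.sqrt_nonneg _)
      _ = 2 * ((√X * √κ) * r) := by ring
      _ ≤ 2 * ((ε * h2) * r) := by gcongr
      _ = _ := by rw [hh3]; ring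
  have t4' : 2 * (ε * h3) ≤ 2 * K * (ε * h3) := by
    have : 0 ≤ ε * h3 := by positivity
    calc 2 * (ε * h3) = 2 * (1 * (ε * h3)) := by ring
      _ ≤ 2 * (K * (ε * h3)) := by
        have := mul_le_mul_of_nonneg_right hK this
        linarith
      _ = _ := by ring
  rw [add_mul, add_mul]
  have e : 11 * K * (ε * h3) = 5 * K * (ε * h3) + K * (ε * h3) + 3 * K * (ε * h3) +
    2 * K * (ε * h3) := by ring
  rw [e]
  exact add_le_add (add_le_add (add_le_add t1 t2) t3) (t4.trans t4')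

/-- the error of the row equation in the units `h2 √h2` -/
theorem c3_abs {K ε h2 b kp t v x η rho q Im dd df cS X st rk : ℝ}
    (hK : 1 ≤ K) (hε : 0 < ε) (hε1 : ε ≤ 1) (hh : 0 < h2)
    (hx0 : 0 ≤ x) (hη0 : 0 ≤ η) (hη1 : η ≤ 1) (hkp0 : 0 ≤ kp) (hkp : kp ≤ K)
    (hq0 : 0 ≤ q) (hq : q ≤ K * √h2)
    (H1 : rho - (b * kp) ^ 2 * t ≤ K * (ε * h2)) (H1' : Im ≤ ε * (h2 * √h2))
    (H2 : b ^ 2 * t * (dd * √q + √X * √(2 * cS ^ 2 + 2 * st)) + v * df ≤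
      16 * K ^ 2 * (ε * (h2 * √h2)))
    (H3 : x ≤ ε * √h2) (H4 : b ^ 2 * t * √rk ≤ K * ε * √h2) :
    C3q b kp t v x η rho q Im dd df cS X st h2 rk ≤ 47 * K ^ 3 * (ε * (h2 * √h2)) := by
  unfold C3q
  obtain ⟨r, hr⟩ : ∃ r, r = √h2 := ⟨_, rfl⟩
  rw [← hr] at hq H1' H2 H3 H4 ⊢
  have hr0 : 0 < r := by rw [hr]; exact Real.sqrt_pos.2 hh
  have hr2 : r * r = h2 := by rw [hr]; exact Real.mul_self_sqrt hh.le
  obtain ⟨R, hR⟩ : ∃ R, R = b ^ 2 * t * √rk := ⟨_, rfl⟩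
  rw [← hR] at H4
  have hK0 : 0 < K := by linarith
  obtain ⟨h3, hh3⟩ : ∃ h3, h3 = h2 * r := ⟨_, rfl⟩
  rw [← hh3] at H1' H2 ⊢
  have h30 : 0 < h3 := by rw [hh3]; exact mul_pos hh hr0
  have h0 : 0 ≤ ε * h3 := by positivity
  have kp2 : kp ^ 2 ≤ K ^ 2 := pow_le_pow_left₀ hkp0 hkp 2
  have a0 : (rho - (b * kp) ^ 2 * t) * q ≤ K ^ 2 * (ε * h3) := by
    calc (rho - (b * kp) ^ 2 * t) * q ≤ K * (ε * h2) * q := mul_le_mul_of_nonneg_right H1 hq0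
      _ ≤ K * (ε * h2) * (K * r) := mul_le_mul_of_nonneg_left hq (by positivity)
      _ = _ := by rw [hh3]; ring
  have a1 : 2 * kp * (b ^ 2 * t * (dd * √q + √X * √(2 * cS ^ 2 + 2 * st)) + v * df) ≤
      32 * K ^ 3 * (ε * h3) := by
    have h1 : 2 * kp * (b ^ 2 * t * (dd * √q + √X * √(2 * cS ^ 2 + 2 * st)) + v * df) ≤
        2 * kp * (16 * K ^ 2 * (ε * h3)) := mul_le_mul_of_nonneg_left H2 (by positivity)
    have h2' : 2 * kp * (16 * K ^ 2 * (ε * h3)) ≤ 2 * K * (16 * K ^ 2 * (ε * h3)) :=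
      mul_le_mul_of_nonneg_right (by linarith) (by positivity)
    calc _ ≤ _ := h1.trans h2'
      _ = _ := by ring
  have e1 : 2 * h2 + 2 * (3 / 2 * (b ^ 2 * t * (√rk * r)) + 4 * η ^ 2 * h2) =
      2 * h2 + 3 * (R * r) + 8 * (η ^ 2 * h2) := by rw [hR]; ring
  have e2 : R * r ≤ K * h2 := by
    calc R * r ≤ (K * ε * r) * r := mul_le_mul_of_nonneg_right H4 hr0.le
      _ = ε * (K * h2) := by rw [← hr2]; ring
      _ ≤ 1 * (K * h2) := mul_le_mul_of_nonneg_right hε1 (by positivity)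
      _ = _ := by ring
  have e3 : η ^ 2 ≤ 1 := pow_le_one₀ hη0 hη1
  have e4 : 2 * h2 + 3 * (R * r) + 8 * (η ^ 2 * h2) ≤ 13 * (K * h2) := by
    have g1 : η ^ 2 * h2 ≤ 1 * h2 := mul_le_mul_of_nonneg_right e3 hh.le
    have g2 : 1 * h2 ≤ K * h2 := mul_le_mul_of_nonneg_right hK hh.le
    linarith
  have e5 : x * kp ^ 2 ≤ (ε * r) * K ^ 2 := mul_le_mul H3 kp2 (by positivity) (by positivity)
  have a2 : x * kp ^ 2 * (2 * h2 + 2 * (3 / 2 * (b ^ 2 * t * (√rk * r)) + 4 * η ^ 2 * h2)) ≤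
      (13 * K ^ 3) * (ε * h3) := by
    rw [e1]
    have h9 : x * kp ^ 2 * (2 * h2 + 3 * (R * r) + 8 * (η ^ 2 * h2)) ≤
        x * kp ^ 2 * (13 * (K * h2)) := mul_le_mul_of_nonneg_left e4 (by positivity)
    refine h9.trans ?_
    calc _ ≤ ((ε * r) * K ^ 2) * (13 * (K * h2)) :=
          mul_le_mul_of_nonneg_right e5 (by positivity)
      _ = _ := by rw [hh3]; ring
  have k23 : K ^ 2 ≤ K ^ 3 := pow_le_pow_right₀ hK (by norm_num)
  have h1 : (1 : ℝ) ≤ K ^ 3 := one_le_pow₀ hK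
  have g1 := mul_le_mul_of_nonneg_right k23 h0
  have g2 := mul_le_mul_of_nonneg_right h1 h0
  linarith

/-- the other terms of the near end inequality -/
theorem b_abs {K ε κ h2 b kp t x η rk b0 G : ℝ}
    (hK : 1 ≤ K) (hh : 0 < h2)
    (hx0 : 0 ≤ x) (hη0 : 0 ≤ η) (hη1 : η ≤ 1) (hx1 : x ≤ 1) (hkp0 : 0 ≤ kp) (hkp : kp ≤ K)
    (hb0 : 48 * b0 ^ 2 + 6 ≤ K) (hκ : 0 ≤ κ) (ht : 0 ≤ t) (hG0 : 0 ≤ G) (hG : G ≤ κ * h2)
    (H3' : x * κ ≤ ε) (H4 : κ * (b ^ 2 * t * √rk) ≤ K * ε * √h2) (H5 : η * κ ≤ ε) :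
    784 * 155446 * ((3 / 2 * (b ^ 2 * t * √rk) + 4 * η ^ 2 * √h2) * G) +
    (44 * (48 * η + 28 * x) ^ 2 + 1696 * (kp ^ 2 * (x * (48 * b0 ^ 2 + 6)) ^ 2)) * (√h2 * G)
     ≤ (784 * 155446 * (3 / 2 * K + 4) + (271744 + 1696 * K ^ 4)) * (ε * (h2 * √h2)) := by
  obtain ⟨r, hr⟩ : ∃ r, r = √h2 := ⟨_, rfl⟩
  rw [← hr] at H4 ⊢
  have hr0 : 0 < r := by rw [hr]; exact Real.sqrt_pos.2 hh
  obtain ⟨R, hR⟩ : ∃ R, R = b ^ 2 * t * √rk := ⟨_, rfl⟩
  rw [← hR] at H4 ⊢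
  have hR0 : 0 ≤ R := by
    rw [hR]
    exact mul_nonneg (mul_nonneg (sq_nonneg _) ht) (Real.sqrt_nonneg _)
  have hK0 : 0 < K := by linarith
  obtain ⟨h3, hh3⟩ : ∃ h3, h3 = h2 * r := ⟨_, rfl⟩
  rw [← hh3]
  have h30 : 0 < h3 := by rw [hh3]; exact mul_pos hh hr0
  have kp2 : kp ^ 2 ≤ K ^ 2 := pow_le_pow_left₀ hkp0 hkp 2
  have b1 : R * G ≤ K * (ε * h3) := by
    calc R * G ≤ R * (κ * h2) := mul_le_mul_of_nonneg_left hG hR0
      _ = (κ * R) * h2 := by ring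
      _ ≤ (K * ε * r) * h2 := mul_le_mul_of_nonneg_right H4 hh.le
      _ = _ := by rw [hh3]; ring
  have hκG : r * G ≤ κ * h3 := by
    calc r * G ≤ r * (κ * h2) := mul_le_mul_of_nonneg_left hG hr0.le
      _ = _ := by rw [hh3]; ring
  have e2 : η ^ 2 * κ ≤ ε := by
    calc η ^ 2 * κ = η * (η * κ) := by ring
      _ ≤ 1 * (η * κ) := mul_le_mul_of_nonneg_right hη1 (by positivity)
      _ ≤ ε := by linarith
  have e3 : x ^ 2 * κ ≤ ε := by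
    calc x ^ 2 * κ = x * (x * κ) := by ring
      _ ≤ 1 * (x * κ) := mul_le_mul_of_nonneg_right hx1 (by positivity)
      _ ≤ ε := by linarith
  have b2 : η ^ 2 * (r * G) ≤ ε * h3 := by
    calc η ^ 2 * (r * G) ≤ η ^ 2 * (κ * h3) := mul_le_mul_of_nonneg_left hκG (sq_nonneg _)
      _ = (η ^ 2 * κ) * h3 := by ring
      _ ≤ _ := mul_le_mul_of_nonneg_right e2 h30.le
  have b3 : x ^ 2 * (r * G) ≤ ε * h3 := by
    calc x ^ 2 * (r * G) ≤ x ^ 2 * (κ * h3) := mul_le_mul_of_nonneg_left hκG (sq_nonneg _)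
      _ = (x ^ 2 * κ) * h3 := by ring
      _ ≤ _ := mul_le_mul_of_nonneg_right e3 h30.le
  have f1 : (48 * η + 28 * x) ^ 2 ≤ 4608 * η ^ 2 + 1568 * x ^ 2 := by
    have := sq_nonneg (48 * η - 28 * x)
    linarith [this]
  have f2 : (48 * b0 ^ 2 + 6) ^ 2 ≤ K ^ 2 := pow_le_pow_left₀ (by positivity) hb0 2
  have f3 : kp ^ 2 * (x * (48 * b0 ^ 2 + 6)) ^ 2 ≤ K ^ 4 * x ^ 2 := by
    calc kp ^ 2 * (x * (48 * b0 ^ 2 + 6)) ^ 2 = (kp ^ 2 * (48 * b0 ^ 2 + 6) ^ 2) * x ^ 2 := by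
          ring
      _ ≤ (K ^ 2 * K ^ 2) * x ^ 2 := by
          refine mul_le_mul_of_nonneg_right (mul_le_mul kp2 f2 (by positivity)
            (by positivity)) (sq_nonneg _)
      _ = _ := by ring
  have f4 : 0 ≤ r * G := by positivity
  have b4 : (44 * (48 * η + 28 * x) ^ 2 + 1696 * (kp ^ 2 * (x * (48 * b0 ^ 2 + 6)) ^ 2)) *
      (r * G) ≤ (271744 + 1696 * K ^ 4) * (ε * h3) := by
    calc _ ≤ (44 * (4608 * η ^ 2 + 1568 * x ^ 2) + 1696 * (K ^ 4 * x ^ 2)) * (r * G) :=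
          mul_le_mul_of_nonneg_right (by linarith) f4
      _ = 202752 * (η ^ 2 * (r * G)) + (68992 + 1696 * K ^ 4) * (x ^ 2 * (r * G)) := by ring
      _ ≤ 202752 * (ε * h3) + (68992 + 1696 * K ^ 4) * (ε * h3) := by
          refine add_le_add (mul_le_mul_of_nonneg_left b2 (by norm_num))
            (mul_le_mul_of_nonneg_left b3 (by positivity))
      _ = _ := by ring
  have g1 : (3 / 2 * R + 4 * η ^ 2 * r) * G = 3 / 2 * (R * G) + 4 * (η ^ 2 * (r * G)) := by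
    ring
  rw [g1]
  linarith

/-- the conditions on the numbers of the near end at the size `h`; `K` bounds the constants -/
structure NeNum (K c ε κ h x η r0 gg m X st rk rr V : ℝ) : Prop where
  K1 : 1 ≤ K
  c0 : 0 < c
  ε0 : 0 < ε
  ε1 : ε ≤ 1
  εc : ε * (10 ^ 12 * K ^ 4) ≤ c ^ 2
  κ1 : 1 ≤ κ
  h0 : 0 < h
  x0 : 0 ≤ x
  x1 : x ≤ ε * √h
  xκ : x * κ ≤ ε
  η0 : 0 ≤ η
  η1 : η ≤ 1 / 2
  ηκ : η * κ ≤ ε
  r0 : |r0| + 1 ≤ 2 * K
  gg0 : 0 ≤ gg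
  gg1 : gg ≤ 1
  ggκ : κ * gg ≤ ε * h
  m0 : 0 < m
  mκ : κ / √m ≤ ε * h
  X0 : 0 ≤ X
  Xκ : κ * X ≤ (ε * h) ^ 2
  st0 : 0 ≤ st
  st1 : st ≤ h
  st2 : st ≤ 1
  stκ : K * st ≤ (ε * h) ^ 2 * √h
  rk0 : 0 ≤ rk
  rkκ : κ * √rk ≤ ε * √h
  rr : rr ≤ K * (ε * h)
  V : V ≤ ε * (h * √h)

/-- **The step in real numbers**: the right side of the near end inequality is smaller than the
left side. -/
theorem ne_abs {K c ε κ h x η r0 gg m X st rk rr V : ℝ}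
    (N : NeNum K c ε κ h x η r0 gg m X st rk rr V) {h2 b kp t v rho q Im cc cS U G b0 : ℝ}
    (hh : h ≤ h2) (hkp0 : 0 ≤ kp) (hkp : kp ≤ K) (hb0 : 48 * b0 ^ 2 + 6 ≤ K) (ht0 : 0 ≤ t)
    (hbt : b ^ 2 * t ≤ K) (hv : v ≤ V)
    (hrho : rho - (b * kp) ^ 2 * t ≤ rr) (hIm : Im ≤ ε * (h * √h))
    (hq0 : 0 ≤ q) (hq : q ≤ K * √h2) (hc0 : 0 ≤ cc) (hcU : cc ≤ U) (hcS0 : 0 ≤ cS)
    (hcSU : cS ≤ U) (hU : U ^ 2 ≤ κ * h) (hG0 : 0 ≤ G) (hG : G ≤ κ * h) :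
    neQ (C3q b kp t v x η rho q Im
        (√(8 * (1 + η) ^ 2 * cc / m) + gg * √cS + (|r0| + 1) * (1 + η) * √st)
        (kp * η + gg + (|r0| + 1) * (1 + η) * st) cS X st h2 rk) b t kp x η b0 h2 rk G <
      c ^ 2 / 4 * (h2 / 2 * √(h2 / 2)) := by
  obtain ⟨K1, c0, ε0, ε1, εc, κ1, h0, x0, x1, xκ, η0, η1, ηκ, nr0, gg0, gg1, ggκ, m0, mκ, X0,
    Xκ, st0, st1, st2, stκ, rk0, rkκ, nrr, nV⟩ := N
  have hK0 : 0 < K := by linarith
  have hκ0 : 0 < κ := by linarith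
  have h20 : 0 < h2 := by linarith
  have hs : √h ≤ √h2 := Real.sqrt_le_sqrt hh
  have hs0 : 0 < √h := Real.sqrt_pos.2 h0
  have e1 : ε * h ≤ ε * h2 := mul_le_mul_of_nonneg_left hh ε0.le
  have e2 : ε * √h ≤ ε * √h2 := mul_le_mul_of_nonneg_left hs ε0.le
  have e3 : h * √h ≤ h2 * √h2 := mul_le_mul hh hs hs0.le h20.le
  have e4 : ε * (h * √h) ≤ ε * (h2 * √h2) := mul_le_mul_of_nonneg_left e3 ε0.le
  have e5 : (ε * h) ^ 2 ≤ (ε * h2) ^ 2 := pow_le_pow_left₀ (by positivity) e1 2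
  have e6 : κ * h ≤ κ * h2 := mul_le_mul_of_nonneg_left hh hκ0.le
  have e7 : (ε * h) ^ 2 * √h ≤ (ε * h2) ^ 2 * √h2 :=
    mul_le_mul e5 hs hs0.le (by positivity)
  have hD := d_abs (K := K) (ε := ε) (κ := κ) (h2 := h2) (η := η) (r0 := r0) (gg := gg)
    (m := m) (c := cc) (cS := cS) (st := st) (q' := q) (X := X) (U := U) K1 ε0 κ1 h20 η0 η1 nr0
    gg0 m0 hc0 hcU hcS0 hcSU (hU.trans e6) st0 (st1.trans hh) hq0 hq X0 (mκ.trans e1)
    (ggκ.trans e1) (stκ.trans e7) (Xκ.trans e5)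
  obtain ⟨h3, hh3⟩ : ∃ h3, h3 = h2 * √h2 := ⟨_, rfl⟩
  have h30 : 0 < h3 := by rw [hh3]; exact mul_pos h20 (Real.sqrt_pos.2 h20)
  have hεh : 0 ≤ ε * h3 := by positivity
  have H2 : b ^ 2 * t * ((√(8 * (1 + η) ^ 2 * cc / m) + gg * √cS +
      (|r0| + 1) * (1 + η) * √st) * √q + √X * √(2 * cS ^ 2 + 2 * st)) +
      v * (kp * η + gg + (|r0| + 1) * (1 + η) * st) ≤ 16 * K ^ 2 * (ε * (h2 * √h2)) := by
    rw [← hh3] at hD e4 ⊢
    have hbt0 : 0 ≤ b ^ 2 * t := mul_nonneg (sq_nonneg _) ht0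
    have g1 : b ^ 2 * t * ((√(8 * (1 + η) ^ 2 * cc / m) + gg * √cS +
      (|r0| + 1) * (1 + η) * √st) * √q + √X * √(2 * cS ^ 2 + 2 * st)) ≤
        K * (11 * K * (ε * h3)) := by
      refine (mul_le_mul_of_nonneg_left hD hbt0).trans ?_
      exact mul_le_mul_of_nonneg_right hbt (by positivity)
    have g2 : kp * η + gg + (|r0| + 1) * (1 + η) * st ≤ 5 * K := by
      have f1 : kp * η ≤ K * (1 / 2) := mul_le_mul hkp η1 η0 hK0.le
      have f2 : (|r0| + 1) * (1 + η) * st ≤ 2 * K * (3 / 2) * 1 := by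
        have : 0 ≤ |r0| + 1 := by positivity
        gcongr
        linarith
      linarith
    have g3 : 0 ≤ kp * η + gg + (|r0| + 1) * (1 + η) * st := by positivity
    have g4 : v * (kp * η + gg + (|r0| + 1) * (1 + η) * st) ≤ (ε * h3) * (5 * K) :=
      mul_le_mul (hv.trans (nV.trans e4)) g2 g3 (by positivity)
    have g5 : 5 * K * (ε * h3) ≤ 5 * K ^ 2 * (ε * h3) := by
      have : K ≤ K ^ 2 := by
        calc K = K * 1 := (mul_one K).symm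
          _ ≤ K * K := mul_le_mul_of_nonneg_left K1 hK0.le
          _ = _ := (sq K).symm
      have := mul_le_mul_of_nonneg_right this hεh
      linarith
    calc _ ≤ K * (11 * K * (ε * h3)) + (ε * h3) * (5 * K) := add_le_add g1 g4
      _ ≤ 11 * K ^ 2 * (ε * h3) + 5 * K ^ 2 * (ε * h3) := by
          refine add_le_add (le_of_eq (by ring)) ?_
          linarith
      _ = _ := by ring
  have hbt0 : 0 ≤ b ^ 2 * t := mul_nonneg (sq_nonneg _) ht0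
  have hsr := Real.sqrt_nonneg rk
  have H4' : κ * (b ^ 2 * t * √rk) ≤ K * ε * √h2 := by
    calc κ * (b ^ 2 * t * √rk) = b ^ 2 * t * (κ * √rk) := by ring
      _ ≤ K * (κ * √rk) := mul_le_mul_of_nonneg_right hbt (by positivity)
      _ ≤ K * (ε * √h2) := mul_le_mul_of_nonneg_left (rkκ.trans e2) hK0.le
      _ = _ := by ring
  have H4 : b ^ 2 * t * √rk ≤ K * ε * √h2 := by
    refine le_trans ?_ H4'
    exact le_mul_of_one_le_left (mul_nonneg hbt0 hsr) κ1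
  have η1' : η ≤ 1 := by linarith
  have x1' : x ≤ 1 := by
    calc x = x * 1 := (mul_one x).symm
      _ ≤ x * κ := mul_le_mul_of_nonneg_left κ1 x0
      _ ≤ 1 := by linarith
  have H1 : rho - (b * kp) ^ 2 * t ≤ K * (ε * h2) := by
    refine (hrho.trans nrr).trans ?_
    exact mul_le_mul_of_nonneg_left e1 hK0.le
  have h1 := c3_abs (K := K) (ε := ε) (h2 := h2) (b := b) (kp := kp) (t := t) (v := v) (x := x)
    (η := η) (rho := rho) (q := q) (Im := Im) (cS := cS) (X := X) (st := st) (rk := rk)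
    K1 ε0 ε1 h20 x0 η0 η1' hkp0 hkp hq0 hq H1 (hIm.trans e4) H2 (x1.trans e2) H4
  have h2' := b_abs (K := K) (ε := ε) (κ := κ) (h2 := h2) (b := b) (kp := kp) (t := t) (x := x)
    (η := η) (rk := rk) (b0 := b0) (G := G) K1 h20 x0 η0 η1' x1' hkp0 hkp hb0 hκ0.le ht0 hG0
    (hG.trans e6) xκ H4' ηκ
  obtain ⟨r, hr⟩ : ∃ r, r = √h2 := ⟨_, rfl⟩
  have hr0 : 0 < r := by rw [hr]; exact Real.sqrt_pos.2 h20
  have hr2 : r * r = h2 := by rw [hr]; exact Real.mul_self_sqrt h20.le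
  have k1 : (1 : ℝ) ≤ K ^ 4 := one_le_pow₀ K1
  have k34 : K ^ 3 ≤ K ^ 4 := pow_le_pow_right₀ K1 (by norm_num)
  have k14 : K ^ 1 ≤ K ^ 4 := pow_le_pow_right₀ K1 (by norm_num)
  rw [pow_one] at k14
  have m1 := mul_le_mul_of_nonneg_right k1 hεh
  have m3 := mul_le_mul_of_nonneg_right k34 hεh
  have m4 := mul_le_mul_of_nonneg_right k14 hεh
  rw [← hh3] at h1 h2'
  have s1 : r / 2 ≤ √(h2 / 2) := by
    refine Real.le_sqrt_of_sq_le ?_
    rw [div_pow, sq, hr2]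
    linarith
  have hlow : c ^ 2 / 16 * h3 ≤ c ^ 2 / 4 * (h2 / 2 * √(h2 / 2)) := by
    have s2 : h2 / 2 * (r / 2) ≤ h2 / 2 * √(h2 / 2) :=
      mul_le_mul_of_nonneg_left s1 (by positivity)
    have s3 := mul_le_mul_of_nonneg_left s2 (show 0 ≤ c ^ 2 / 4 by positivity)
    calc c ^ 2 / 16 * h3 = c ^ 2 / 4 * (h2 / 2 * (r / 2)) := by rw [hh3, ← hr]; ring
      _ ≤ _ := s3
  refine lt_of_le_of_lt ?_ (lt_of_lt_of_le (?_ : 10 ^ 9 * (K ^ 4 * (ε * h3)) < _) hlow)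
  · unfold neQ
    linarith
  · have e : 10 ^ 9 * (K ^ 4 * (ε * h3)) = (ε * (10 ^ 12 * K ^ 4)) * h3 / 1000 := by ring
    rw [e]
    have : (ε * (10 ^ 12 * K ^ 4)) * h3 ≤ c ^ 2 * h3 := mul_le_mul_of_nonneg_right εc h30.le
    have h5 : 0 < c ^ 2 * h3 := by positivity
    linarith

end Vale.Agent.P146.H757
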