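import Vale.Agent.P146.H470.Env
import Vale.Agent.P146.H418.Par

/-!
# P146: the conditions of the near end in the final version, on the window of the numbers

`Nf`: the window in logarithmic form (unit `q`); `nf_cond`: all the comparisons of the near end with
`h = n^(-37q) y^4 / (C T)`, `κ = C n^(39q)`, `U² = 48 n^q y^4 / (b² T)`, `e = n^(-38q) y² √T`.
-/

namespace Vale.Agent.P146.H757

open Real Filter Vale.Agent.P146.H470

set_option linter.unusedVariables false
set_option linter.unusedSimpArgs false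

/-- the window in logarithmic form; `m` hidden sites -/
structure Nf (q K : ℝ) (n : ℕ) (y V T m s : ℝ) : Prop where
  n0 : (0 : ℝ) < n
  y0 : 0 < y
  V0 : 0 < V
  T0 : 0 < T
  m0 : 0 < m
  s0 : 0 < s
  L0 : 0 < log n
  qL : 0 < q * log n
  cst : K ≤ q / 100 * log n
  ylo : -(1 / 6) * log n + 999 * q * log n ≤ log y
  yhi : log y ≤ -(99 * q) * log n
  Vl : -(24 * q) * log n + 3 * log y - q / 100 * log n ≤ log V
  Vu : log V ≤ -(24 * q) * log n + 3 * log y + q / 100 * log n
  Tl : -(37 * q) * log n + 4 * log y ≤ log T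
  Tu : log T ≤ -(70 * q) * log n + 2 * log y
  ml : -(40 * q) * log n + log n + log T ≤ log m
  mu : log m ≤ 2 + -(40 * q) * log n + log n + log T
  sl : -(80 * q) * log n + log V - q / 100 * log n ≤ 2 * log s
  su : 2 * log s ≤ -(80 * q) * log n + log V

/-- the constant which absorbs all the others -/
noncomputable def Kn (b C c ε K : ℝ) : ℝ :=
  10 * |log b| + 10 * |log C| + 10 * |log c| + 10 * |log ε| + 10 * |log K| +
    10 * |log (b + 2)| + 100000

/-- the size of the two spin number -/
noncomputable def Un (b q : ℝ) (n : ℕ) (y T : ℝ) : ℝ := √(48 * ((n : ℝ) ^ q * y ^ 4) / (b ^ 2 * T))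

/-- the hidden window of the fields -/
noncomputable def en (q : ℝ) (n : ℕ) (y T : ℝ) : ℝ := (n : ℝ) ^ (-(38 * q)) * y ^ 2 * √T

/-- the size of the near end -/
noncomputable def hn (C q : ℝ) (n : ℕ) (y T : ℝ) : ℝ := (n : ℝ) ^ (-(37 * q)) * y ^ 4 / (C * T)

/-- the factor -/
noncomputable def kn (C q : ℝ) (n : ℕ) : ℝ := C * (n : ℝ) ^ (39 * q)

/-- all the comparisons -/
structure Nc (b C c ε K q : ℝ) (n : ℕ) (y V T m s : ℝ) : Prop where
  k_m : kn C q n / √m ≤ ε * hn C q n y T
  k_gg : kn C q n * ((n : ℝ) ^ (-(3800 * q)) * y ^ 2) ≤ ε * hn C q n y T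
  gg1 : (n : ℝ) ^ (-(3800 * q)) * y ^ 2 ≤ 1
  T_h : T ≤ ε * hn C q n y T
  m_h : m / n ≤ ε * hn C q n y T
  al_h : 4 * b * ((n : ℝ) ^ (q / 2) * y ^ 5 / V) ≤ ε * hn C q n y T
  al_1 : 4 * b * ((n : ℝ) ^ (q / 2) * y ^ 5 / V) ≤ 1 / 4
  y_h : y ≤ ε * √(hn C q n y T)
  y_k : y * kn C q n ≤ ε
  eta_k : (n : ℝ) ^ (-(2000 * q)) * kn C q n ≤ ε
  eta_k2 : (n : ℝ) ^ (-(2000 * q)) * kn C q n ^ 2 ≤ ε
  eta_1 : (n : ℝ) ^ (-(2000 * q)) ≤ 1 / 10
  X_e : kn C q n * (52 * Un b q n y T / (n * en q n y T)) ≤ (ε * hn C q n y T) ^ 2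
  X_s : kn C q n * (52 * Un b q n y T / (n * s ^ 2)) ≤ (ε * hn C q n y T) ^ 2
  st_h : (n : ℝ) ^ (-2 : ℝ) ≤ hn C q n y T
  st_1 : (n : ℝ) ^ (-2 : ℝ) ≤ 1
  st_K : K * (n : ℝ) ^ (-2 : ℝ) ≤ (ε * hn C q n y T) ^ 2 * √(hn C q n y T)
  rk_h : kn C q n * √(13 * Un b q n y T / (n * (y ^ 2 * en q n y T))) ≤ ε * √(hn C q n y T)
  rk_w : 3 * (13 * Un b q n y T / (n * (y ^ 2 * en q n y T))) ≤
    (n : ℝ) ^ (-(37 * q)) * y ^ 4 / (4 * T)
  V_h : V ≤ ε * (hn C q n y T * √(hn C q n y T))
  U_h : Un b q n y T ^ 2 ≤ kn C q n * hn C q n y T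
  G_1 : 250 * b ^ 2 * ((n : ℝ) ^ q * y ^ 4 / T) ≤ kn C q n * hn C q n y T / 2
  G_2 : 2 * V ^ 2 ≤ kn C q n * hn C q n y T / 2
  pb_m : kn C q n ^ 2 / √m ≤ ε
  pb_w : kn C q n ^ 2 / (√((n : ℝ) ^ (-(37 * q)) * y ^ 4) * √n) ≤ ε
  inc : 208 * Un b q n y T / m ≤ ε * (hn C q n y T * √(hn C q n y T))
  m_n : 4 * m ≤ n
  w_V : (n : ℝ) ^ (-(37 * q)) * y ^ 4 ≤ V / 8
  e_V : en q n y T ≤ V / 8
  s_V : s ^ 2 ≤ V / 2
  T_1 : T ≤ 1
  V_1 : V ≤ 1
  y_c : y ≤ c / 4
  y_b : y * (b + 2) ≤ 1 / 4
  y_1 : y ≤ 1 / 4
  k_1 : 1 ≤ kn C q n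

section

variable {b C c ε K q : ℝ} {n : ℕ} {y V T m s : ℝ}

lemma num_log {x : ℝ} (h0 : 0 < x) (h1 : x ≤ 10000) : log x ≤ 10000 :=
  (Real.log_le_sub_one_of_pos h0).trans (by linarith)

/-- the facts on the constants -/
lemma kn_facts (b C c ε K : ℝ) :
    log b ≤ |log b| ∧ -log b ≤ |log b| ∧ log C ≤ |log C| ∧ -log C ≤ |log C| ∧
    log c ≤ |log c| ∧ -log c ≤ |log c| ∧ log ε ≤ |log ε| ∧ -log ε ≤ |log ε| ∧
    log K ≤ |log K| ∧ -log K ≤ |log K| ∧ 0 ≤ |log b| ∧ 0 ≤ |log C| ∧ 0 ≤ |log c| ∧
    0 ≤ |log ε| ∧ 0 ≤ |log K| :=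
  ⟨le_abs_self _, neg_le_abs _, le_abs_self _, neg_le_abs _, le_abs_self _, neg_le_abs _,
    le_abs_self _, neg_le_abs _, le_abs_self _, neg_le_abs _, abs_nonneg _, abs_nonneg _,
    abs_nonneg _, abs_nonneg _, abs_nonneg _⟩

lemma nf_k_m (h : Nf q (Kn b C c ε K) n y V T m s) (hb : 0 < b) (hC : 0 < C) (hc : 0 < c)
    (hε : 0 < ε) (hK : 0 < K) : kn C q n / √m ≤ ε * hn C q n y T := by
  obtain ⟨gn0, gy, gV, gT, gm, gs, gL, qL, k0, l1, l2, l3, l4, l5, l6, l7, l8, l9, l10⟩ := h
  obtain ⟨a1, a2, a3, a4, a5, a6, a7, a8, a9, a10, a11, a12, a13, a14, a15⟩ :=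
    kn_facts b C c ε K
  have n52 := num_log (x := 52) (by norm_num) (by norm_num)
  have n48 := num_log (x := 48) (by norm_num) (by norm_num)
  have n208 := num_log (x := 208) (by norm_num) (by norm_num)
  have n13 := num_log (x := 13) (by norm_num) (by norm_num)
  have n250 := num_log (x := 250) (by norm_num) (by norm_num)
  have n2 := num_log (x := 2) (by norm_num) (by norm_num)
  have n3 := num_log (x := 3) (by norm_num) (by norm_num)
  have n4 := num_log (x := 4) (by norm_num) (by norm_num)
  have n8 := num_log (x := 8) (by norm_num) (by norm_num)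
  have n10 := num_log (x := 10) (by norm_num) (by norm_num)
  have p48 : 0 ≤ log 48 := Real.log_nonneg (by norm_num)
  have p2 : 0 ≤ log 2 := Real.log_nonneg (by norm_num)
  have b2a : log (b + 2) ≤ |log (b + 2)| := le_abs_self _
  have b2b : -log (b + 2) ≤ |log (b + 2)| := neg_le_abs _
  have b2c : 0 ≤ |log (b + 2)| := abs_nonneg _
  unfold Kn at k0
  unfold hn kn
  refine le_of_log (by positivity) (by positivity) ?_
  simp (disch := positivity) only [Real.log_mul, Real.log_rpow, Real.log_pow, Real.log_div,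
    Real.log_sqrt, Real.log_one]
  push_cast
  linarith

lemma nf_k_gg (h : Nf q (Kn b C c ε K) n y V T m s) (hb : 0 < b) (hC : 0 < C) (hc : 0 < c)
    (hε : 0 < ε) (hK : 0 < K) : kn C q n * ((n : ℝ) ^ (-(3800 * q)) * y ^ 2) ≤ ε * hn C q n y T := by
  obtain ⟨gn0, gy, gV, gT, gm, gs, gL, qL, k0, l1, l2, l3, l4, l5, l6, l7, l8, l9, l10⟩ := h
  obtain ⟨a1, a2, a3, a4, a5, a6, a7, a8, a9, a10, a11, a12, a13, a14, a15⟩ :=
    kn_facts b C c ε K
  have n52 := num_log (x := 52) (by norm_num) (by norm_num)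
  have n48 := num_log (x := 48) (by norm_num) (by norm_num)
  have n208 := num_log (x := 208) (by norm_num) (by norm_num)
  have n13 := num_log (x := 13) (by norm_num) (by norm_num)
  have n250 := num_log (x := 250) (by norm_num) (by norm_num)
  have n2 := num_log (x := 2) (by norm_num) (by norm_num)
  have n3 := num_log (x := 3) (by norm_num) (by norm_num)
  have n4 := num_log (x := 4) (by norm_num) (by norm_num)
  have n8 := num_log (x := 8) (by norm_num) (by norm_num)
  have n10 := num_log (x := 10) (by norm_num) (by norm_num)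
  have p48 : 0 ≤ log 48 := Real.log_nonneg (by norm_num)
  have p2 : 0 ≤ log 2 := Real.log_nonneg (by norm_num)
  have b2a : log (b + 2) ≤ |log (b + 2)| := le_abs_self _
  have b2b : -log (b + 2) ≤ |log (b + 2)| := neg_le_abs _
  have b2c : 0 ≤ |log (b + 2)| := abs_nonneg _
  unfold Kn at k0
  unfold hn kn
  refine le_of_log (by positivity) (by positivity) ?_
  simp (disch := positivity) only [Real.log_mul, Real.log_rpow, Real.log_pow, Real.log_div,
    Real.log_sqrt, Real.log_one]
  push_cast
  linarith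

lemma nf_gg1 (h : Nf q (Kn b C c ε K) n y V T m s) (hb : 0 < b) (hC : 0 < C) (hc : 0 < c)
    (hε : 0 < ε) (hK : 0 < K) : (n : ℝ) ^ (-(3800 * q)) * y ^ 2 ≤ 1 := by
  obtain ⟨gn0, gy, gV, gT, gm, gs, gL, qL, k0, l1, l2, l3, l4, l5, l6, l7, l8, l9, l10⟩ := h
  obtain ⟨a1, a2, a3, a4, a5, a6, a7, a8, a9, a10, a11, a12, a13, a14, a15⟩ :=
    kn_facts b C c ε K
  have n52 := num_log (x := 52) (by norm_num) (by norm_num)
  have n48 := num_log (x := 48) (by norm_num) (by norm_num)
  have n208 := num_log (x := 208) (by norm_num) (by norm_num)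
  have n13 := num_log (x := 13) (by norm_num) (by norm_num)
  have n250 := num_log (x := 250) (by norm_num) (by norm_num)
  have n2 := num_log (x := 2) (by norm_num) (by norm_num)
  have n3 := num_log (x := 3) (by norm_num) (by norm_num)
  have n4 := num_log (x := 4) (by norm_num) (by norm_num)
  have n8 := num_log (x := 8) (by norm_num) (by norm_num)
  have n10 := num_log (x := 10) (by norm_num) (by norm_num)
  have p48 : 0 ≤ log 48 := Real.log_nonneg (by norm_num)
  have p2 : 0 ≤ log 2 := Real.log_nonneg (by norm_num)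
  have b2a : log (b + 2) ≤ |log (b + 2)| := le_abs_self _
  have b2b : -log (b + 2) ≤ |log (b + 2)| := neg_le_abs _
  have b2c : 0 ≤ |log (b + 2)| := abs_nonneg _
  unfold Kn at k0
  refine le_of_log (by positivity) (by positivity) ?_
  simp (disch := positivity) only [Real.log_mul, Real.log_rpow, Real.log_pow, Real.log_div,
    Real.log_sqrt, Real.log_one]
  push_cast
  linarith

lemma nf_T_h (h : Nf q (Kn b C c ε K) n y V T m s) (hb : 0 < b) (hC : 0 < C) (hc : 0 < c)
    (hε : 0 < ε) (hK : 0 < K) : T ≤ ε * hn C q n y T := by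
  obtain ⟨gn0, gy, gV, gT, gm, gs, gL, qL, k0, l1, l2, l3, l4, l5, l6, l7, l8, l9, l10⟩ := h
  obtain ⟨a1, a2, a3, a4, a5, a6, a7, a8, a9, a10, a11, a12, a13, a14, a15⟩ :=
    kn_facts b C c ε K
  have n52 := num_log (x := 52) (by norm_num) (by norm_num)
  have n48 := num_log (x := 48) (by norm_num) (by norm_num)
  have n208 := num_log (x := 208) (by norm_num) (by norm_num)
  have n13 := num_log (x := 13) (by norm_num) (by norm_num)
  have n250 := num_log (x := 250) (by norm_num) (by norm_num)
  have n2 := num_log (x := 2) (by norm_num) (by norm_num)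
  have n3 := num_log (x := 3) (by norm_num) (by norm_num)
  have n4 := num_log (x := 4) (by norm_num) (by norm_num)
  have n8 := num_log (x := 8) (by norm_num) (by norm_num)
  have n10 := num_log (x := 10) (by norm_num) (by norm_num)
  have p48 : 0 ≤ log 48 := Real.log_nonneg (by norm_num)
  have p2 : 0 ≤ log 2 := Real.log_nonneg (by norm_num)
  have b2a : log (b + 2) ≤ |log (b + 2)| := le_abs_self _
  have b2b : -log (b + 2) ≤ |log (b + 2)| := neg_le_abs _
  have b2c : 0 ≤ |log (b + 2)| := abs_nonneg _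
  unfold Kn at k0
  unfold hn
  refine le_of_log (by positivity) (by positivity) ?_
  simp (disch := positivity) only [Real.log_mul, Real.log_rpow, Real.log_pow, Real.log_div,
    Real.log_sqrt, Real.log_one]
  push_cast
  linarith

lemma nf_m_h (h : Nf q (Kn b C c ε K) n y V T m s) (hb : 0 < b) (hC : 0 < C) (hc : 0 < c)
    (hε : 0 < ε) (hK : 0 < K) : m / n ≤ ε * hn C q n y T := by
  obtain ⟨gn0, gy, gV, gT, gm, gs, gL, qL, k0, l1, l2, l3, l4, l5, l6, l7, l8, l9, l10⟩ := h
  obtain ⟨a1, a2, a3, a4, a5, a6, a7, a8, a9, a10, a11, a12, a13, a14, a15⟩ :=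
    kn_facts b C c ε K
  have n52 := num_log (x := 52) (by norm_num) (by norm_num)
  have n48 := num_log (x := 48) (by norm_num) (by norm_num)
  have n208 := num_log (x := 208) (by norm_num) (by norm_num)
  have n13 := num_log (x := 13) (by norm_num) (by norm_num)
  have n250 := num_log (x := 250) (by norm_num) (by norm_num)
  have n2 := num_log (x := 2) (by norm_num) (by norm_num)
  have n3 := num_log (x := 3) (by norm_num) (by norm_num)
  have n4 := num_log (x := 4) (by norm_num) (by norm_num)
  have n8 := num_log (x := 8) (by norm_num) (by norm_num)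
  have n10 := num_log (x := 10) (by norm_num) (by norm_num)
  have p48 : 0 ≤ log 48 := Real.log_nonneg (by norm_num)
  have p2 : 0 ≤ log 2 := Real.log_nonneg (by norm_num)
  have b2a : log (b + 2) ≤ |log (b + 2)| := le_abs_self _
  have b2b : -log (b + 2) ≤ |log (b + 2)| := neg_le_abs _
  have b2c : 0 ≤ |log (b + 2)| := abs_nonneg _
  unfold Kn at k0
  unfold hn
  refine le_of_log (by positivity) (by positivity) ?_
  simp (disch := positivity) only [Real.log_mul, Real.log_rpow, Real.log_pow, Real.log_div,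
    Real.log_sqrt, Real.log_one]
  push_cast
  linarith

lemma nf_al_h (h : Nf q (Kn b C c ε K) n y V T m s) (hb : 0 < b) (hC : 0 < C) (hc : 0 < c)
    (hε : 0 < ε) (hK : 0 < K) : 4 * b * ((n : ℝ) ^ (q / 2) * y ^ 5 / V) ≤ ε * hn C q n y T := by
  obtain ⟨gn0, gy, gV, gT, gm, gs, gL, qL, k0, l1, l2, l3, l4, l5, l6, l7, l8, l9, l10⟩ := h
  obtain ⟨a1, a2, a3, a4, a5, a6, a7, a8, a9, a10, a11, a12, a13, a14, a15⟩ :=
    kn_facts b C c ε K
  have n52 := num_log (x := 52) (by norm_num) (by norm_num)
  have n48 := num_log (x := 48) (by norm_num) (by norm_num)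
  have n208 := num_log (x := 208) (by norm_num) (by norm_num)
  have n13 := num_log (x := 13) (by norm_num) (by norm_num)
  have n250 := num_log (x := 250) (by norm_num) (by norm_num)
  have n2 := num_log (x := 2) (by norm_num) (by norm_num)
  have n3 := num_log (x := 3) (by norm_num) (by norm_num)
  have n4 := num_log (x := 4) (by norm_num) (by norm_num)
  have n8 := num_log (x := 8) (by norm_num) (by norm_num)
  have n10 := num_log (x := 10) (by norm_num) (by norm_num)
  have p48 : 0 ≤ log 48 := Real.log_nonneg (by norm_num)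
  have p2 : 0 ≤ log 2 := Real.log_nonneg (by norm_num)
  have b2a : log (b + 2) ≤ |log (b + 2)| := le_abs_self _
  have b2b : -log (b + 2) ≤ |log (b + 2)| := neg_le_abs _
  have b2c : 0 ≤ |log (b + 2)| := abs_nonneg _
  unfold Kn at k0
  unfold hn
  refine le_of_log (by positivity) (by positivity) ?_
  simp (disch := positivity) only [Real.log_mul, Real.log_rpow, Real.log_pow, Real.log_div,
    Real.log_sqrt, Real.log_one]
  push_cast
  linarith

lemma nf_al_1 (h : Nf q (Kn b C c ε K) n y V T m s) (hb : 0 < b) (hC : 0 < C) (hc : 0 < c)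
    (hε : 0 < ε) (hK : 0 < K) : 4 * b * ((n : ℝ) ^ (q / 2) * y ^ 5 / V) ≤ 1 / 4 := by
  obtain ⟨gn0, gy, gV, gT, gm, gs, gL, qL, k0, l1, l2, l3, l4, l5, l6, l7, l8, l9, l10⟩ := h
  obtain ⟨a1, a2, a3, a4, a5, a6, a7, a8, a9, a10, a11, a12, a13, a14, a15⟩ :=
    kn_facts b C c ε K
  have n52 := num_log (x := 52) (by norm_num) (by norm_num)
  have n48 := num_log (x := 48) (by norm_num) (by norm_num)
  have n208 := num_log (x := 208) (by norm_num) (by norm_num)
  have n13 := num_log (x := 13) (by norm_num) (by norm_num)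
  have n250 := num_log (x := 250) (by norm_num) (by norm_num)
  have n2 := num_log (x := 2) (by norm_num) (by norm_num)
  have n3 := num_log (x := 3) (by norm_num) (by norm_num)
  have n4 := num_log (x := 4) (by norm_num) (by norm_num)
  have n8 := num_log (x := 8) (by norm_num) (by norm_num)
  have n10 := num_log (x := 10) (by norm_num) (by norm_num)
  have p48 : 0 ≤ log 48 := Real.log_nonneg (by norm_num)
  have p2 : 0 ≤ log 2 := Real.log_nonneg (by norm_num)
  have b2a : log (b + 2) ≤ |log (b + 2)| := le_abs_self _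
  have b2b : -log (b + 2) ≤ |log (b + 2)| := neg_le_abs _
  have b2c : 0 ≤ |log (b + 2)| := abs_nonneg _
  unfold Kn at k0
  refine le_of_log (by positivity) (by positivity) ?_
  simp (disch := positivity) only [Real.log_mul, Real.log_rpow, Real.log_pow, Real.log_div,
    Real.log_sqrt, Real.log_one]
  push_cast
  linarith

lemma nf_y_h (h : Nf q (Kn b C c ε K) n y V T m s) (hb : 0 < b) (hC : 0 < C) (hc : 0 < c)
    (hε : 0 < ε) (hK : 0 < K) : y ≤ ε * √(hn C q n y T) := by
  obtain ⟨gn0, gy, gV, gT, gm, gs, gL, qL, k0, l1, l2, l3, l4, l5, l6, l7, l8, l9, l10⟩ := h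
  obtain ⟨a1, a2, a3, a4, a5, a6, a7, a8, a9, a10, a11, a12, a13, a14, a15⟩ :=
    kn_facts b C c ε K
  have n52 := num_log (x := 52) (by norm_num) (by norm_num)
  have n48 := num_log (x := 48) (by norm_num) (by norm_num)
  have n208 := num_log (x := 208) (by norm_num) (by norm_num)
  have n13 := num_log (x := 13) (by norm_num) (by norm_num)
  have n250 := num_log (x := 250) (by norm_num) (by norm_num)
  have n2 := num_log (x := 2) (by norm_num) (by norm_num)
  have n3 := num_log (x := 3) (by norm_num) (by norm_num)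
  have n4 := num_log (x := 4) (by norm_num) (by norm_num)
  have n8 := num_log (x := 8) (by norm_num) (by norm_num)
  have n10 := num_log (x := 10) (by norm_num) (by norm_num)
  have p48 : 0 ≤ log 48 := Real.log_nonneg (by norm_num)
  have p2 : 0 ≤ log 2 := Real.log_nonneg (by norm_num)
  have b2a : log (b + 2) ≤ |log (b + 2)| := le_abs_self _
  have b2b : -log (b + 2) ≤ |log (b + 2)| := neg_le_abs _
  have b2c : 0 ≤ |log (b + 2)| := abs_nonneg _
  unfold Kn at k0
  unfold hn
  refine le_of_log (by positivity) (by positivity) ?_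
  simp (disch := positivity) only [Real.log_mul, Real.log_rpow, Real.log_pow, Real.log_div,
    Real.log_sqrt, Real.log_one]
  push_cast
  linarith

lemma nf_y_k (h : Nf q (Kn b C c ε K) n y V T m s) (hb : 0 < b) (hC : 0 < C) (hc : 0 < c)
    (hε : 0 < ε) (hK : 0 < K) : y * kn C q n ≤ ε := by
  obtain ⟨gn0, gy, gV, gT, gm, gs, gL, qL, k0, l1, l2, l3, l4, l5, l6, l7, l8, l9, l10⟩ := h
  obtain ⟨a1, a2, a3, a4, a5, a6, a7, a8, a9, a10, a11, a12, a13, a14, a15⟩ :=
    kn_facts b C c ε K
  have n52 := num_log (x := 52) (by norm_num) (by norm_num)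
  have n48 := num_log (x := 48) (by norm_num) (by norm_num)
  have n208 := num_log (x := 208) (by norm_num) (by norm_num)
  have n13 := num_log (x := 13) (by norm_num) (by norm_num)
  have n250 := num_log (x := 250) (by norm_num) (by norm_num)
  have n2 := num_log (x := 2) (by norm_num) (by norm_num)
  have n3 := num_log (x := 3) (by norm_num) (by norm_num)
  have n4 := num_log (x := 4) (by norm_num) (by norm_num)
  have n8 := num_log (x := 8) (by norm_num) (by norm_num)
  have n10 := num_log (x := 10) (by norm_num) (by norm_num)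
  have p48 : 0 ≤ log 48 := Real.log_nonneg (by norm_num)
  have p2 : 0 ≤ log 2 := Real.log_nonneg (by norm_num)
  have b2a : log (b + 2) ≤ |log (b + 2)| := le_abs_self _
  have b2b : -log (b + 2) ≤ |log (b + 2)| := neg_le_abs _
  have b2c : 0 ≤ |log (b + 2)| := abs_nonneg _
  unfold Kn at k0
  unfold kn
  refine le_of_log (by positivity) (by positivity) ?_
  simp (disch := positivity) only [Real.log_mul, Real.log_rpow, Real.log_pow, Real.log_div,
    Real.log_sqrt, Real.log_one]
  push_cast
  linarith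

lemma nf_eta_k (h : Nf q (Kn b C c ε K) n y V T m s) (hb : 0 < b) (hC : 0 < C) (hc : 0 < c)
    (hε : 0 < ε) (hK : 0 < K) : (n : ℝ) ^ (-(2000 * q)) * kn C q n ≤ ε := by
  obtain ⟨gn0, gy, gV, gT, gm, gs, gL, qL, k0, l1, l2, l3, l4, l5, l6, l7, l8, l9, l10⟩ := h
  obtain ⟨a1, a2, a3, a4, a5, a6, a7, a8, a9, a10, a11, a12, a13, a14, a15⟩ :=
    kn_facts b C c ε K
  have n52 := num_log (x := 52) (by norm_num) (by norm_num)
  have n48 := num_log (x := 48) (by norm_num) (by norm_num)
  have n208 := num_log (x := 208) (by norm_num) (by norm_num)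
  have n13 := num_log (x := 13) (by norm_num) (by norm_num)
  have n250 := num_log (x := 250) (by norm_num) (by norm_num)
  have n2 := num_log (x := 2) (by norm_num) (by norm_num)
  have n3 := num_log (x := 3) (by norm_num) (by norm_num)
  have n4 := num_log (x := 4) (by norm_num) (by norm_num)
  have n8 := num_log (x := 8) (by norm_num) (by norm_num)
  have n10 := num_log (x := 10) (by norm_num) (by norm_num)
  have p48 : 0 ≤ log 48 := Real.log_nonneg (by norm_num)
  have p2 : 0 ≤ log 2 := Real.log_nonneg (by norm_num)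
  have b2a : log (b + 2) ≤ |log (b + 2)| := le_abs_self _
  have b2b : -log (b + 2) ≤ |log (b + 2)| := neg_le_abs _
  have b2c : 0 ≤ |log (b + 2)| := abs_nonneg _
  unfold Kn at k0
  unfold kn
  refine le_of_log (by positivity) (by positivity) ?_
  simp (disch := positivity) only [Real.log_mul, Real.log_rpow, Real.log_pow, Real.log_div,
    Real.log_sqrt, Real.log_one]
  push_cast
  linarith

lemma nf_eta_k2 (h : Nf q (Kn b C c ε K) n y V T m s) (hb : 0 < b) (hC : 0 < C) (hc : 0 < c)
    (hε : 0 < ε) (hK : 0 < K) : (n : ℝ) ^ (-(2000 * q)) * kn C q n ^ 2 ≤ ε := by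
  obtain ⟨gn0, gy, gV, gT, gm, gs, gL, qL, k0, l1, l2, l3, l4, l5, l6, l7, l8, l9, l10⟩ := h
  obtain ⟨a1, a2, a3, a4, a5, a6, a7, a8, a9, a10, a11, a12, a13, a14, a15⟩ :=
    kn_facts b C c ε K
  have n52 := num_log (x := 52) (by norm_num) (by norm_num)
  have n48 := num_log (x := 48) (by norm_num) (by norm_num)
  have n208 := num_log (x := 208) (by norm_num) (by norm_num)
  have n13 := num_log (x := 13) (by norm_num) (by norm_num)
  have n250 := num_log (x := 250) (by norm_num) (by norm_num)
  have n2 := num_log (x := 2) (by norm_num) (by norm_num)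
  have n3 := num_log (x := 3) (by norm_num) (by norm_num)
  have n4 := num_log (x := 4) (by norm_num) (by norm_num)
  have n8 := num_log (x := 8) (by norm_num) (by norm_num)
  have n10 := num_log (x := 10) (by norm_num) (by norm_num)
  have p48 : 0 ≤ log 48 := Real.log_nonneg (by norm_num)
  have p2 : 0 ≤ log 2 := Real.log_nonneg (by norm_num)
  have b2a : log (b + 2) ≤ |log (b + 2)| := le_abs_self _
  have b2b : -log (b + 2) ≤ |log (b + 2)| := neg_le_abs _
  have b2c : 0 ≤ |log (b + 2)| := abs_nonneg _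
  unfold Kn at k0
  unfold kn
  refine le_of_log (by positivity) (by positivity) ?_
  simp (disch := positivity) only [Real.log_mul, Real.log_rpow, Real.log_pow, Real.log_div,
    Real.log_sqrt, Real.log_one]
  push_cast
  linarith

lemma nf_eta_1 (h : Nf q (Kn b C c ε K) n y V T m s) (hb : 0 < b) (hC : 0 < C) (hc : 0 < c)
    (hε : 0 < ε) (hK : 0 < K) : (n : ℝ) ^ (-(2000 * q)) ≤ 1 / 10 := by
  obtain ⟨gn0, gy, gV, gT, gm, gs, gL, qL, k0, l1, l2, l3, l4, l5, l6, l7, l8, l9, l10⟩ := h
  obtain ⟨a1, a2, a3, a4, a5, a6, a7, a8, a9, a10, a11, a12, a13, a14, a15⟩ :=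
    kn_facts b C c ε K
  have n52 := num_log (x := 52) (by norm_num) (by norm_num)
  have n48 := num_log (x := 48) (by norm_num) (by norm_num)
  have n208 := num_log (x := 208) (by norm_num) (by norm_num)
  have n13 := num_log (x := 13) (by norm_num) (by norm_num)
  have n250 := num_log (x := 250) (by norm_num) (by norm_num)
  have n2 := num_log (x := 2) (by norm_num) (by norm_num)
  have n3 := num_log (x := 3) (by norm_num) (by norm_num)
  have n4 := num_log (x := 4) (by norm_num) (by norm_num)
  have n8 := num_log (x := 8) (by norm_num) (by norm_num)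
  have n10 := num_log (x := 10) (by norm_num) (by norm_num)
  have p48 : 0 ≤ log 48 := Real.log_nonneg (by norm_num)
  have p2 : 0 ≤ log 2 := Real.log_nonneg (by norm_num)
  have b2a : log (b + 2) ≤ |log (b + 2)| := le_abs_self _
  have b2b : -log (b + 2) ≤ |log (b + 2)| := neg_le_abs _
  have b2c : 0 ≤ |log (b + 2)| := abs_nonneg _
  unfold Kn at k0
  refine le_of_log (by positivity) (by positivity) ?_
  simp (disch := positivity) only [Real.log_mul, Real.log_rpow, Real.log_pow, Real.log_div,
    Real.log_sqrt, Real.log_one]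
  push_cast
  linarith

lemma nf_X_e (h : Nf q (Kn b C c ε K) n y V T m s) (hb : 0 < b) (hC : 0 < C) (hc : 0 < c)
    (hε : 0 < ε) (hK : 0 < K) : kn C q n * (52 * Un b q n y T / (n * en q n y T)) ≤ (ε * hn C q n y T) ^ 2 := by
  obtain ⟨gn0, gy, gV, gT, gm, gs, gL, qL, k0, l1, l2, l3, l4, l5, l6, l7, l8, l9, l10⟩ := h
  obtain ⟨a1, a2, a3, a4, a5, a6, a7, a8, a9, a10, a11, a12, a13, a14, a15⟩ :=
    kn_facts b C c ε K
  have n52 := num_log (x := 52) (by norm_num) (by norm_num)
  have n48 := num_log (x := 48) (by norm_num) (by norm_num)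
  have n208 := num_log (x := 208) (by norm_num) (by norm_num)
  have n13 := num_log (x := 13) (by norm_num) (by norm_num)
  have n250 := num_log (x := 250) (by norm_num) (by norm_num)
  have n2 := num_log (x := 2) (by norm_num) (by norm_num)
  have n3 := num_log (x := 3) (by norm_num) (by norm_num)
  have n4 := num_log (x := 4) (by norm_num) (by norm_num)
  have n8 := num_log (x := 8) (by norm_num) (by norm_num)
  have n10 := num_log (x := 10) (by norm_num) (by norm_num)
  have p48 : 0 ≤ log 48 := Real.log_nonneg (by norm_num)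
  have p2 : 0 ≤ log 2 := Real.log_nonneg (by norm_num)
  have b2a : log (b + 2) ≤ |log (b + 2)| := le_abs_self _
  have b2b : -log (b + 2) ≤ |log (b + 2)| := neg_le_abs _
  have b2c : 0 ≤ |log (b + 2)| := abs_nonneg _
  unfold Kn at k0
  unfold Un en hn kn
  refine le_of_log (by positivity) (by positivity) ?_
  simp (disch := positivity) only [Real.log_mul, Real.log_rpow, Real.log_pow, Real.log_div,
    Real.log_sqrt, Real.log_one]
  push_cast
  linarith

lemma nf_X_s (h : Nf q (Kn b C c ε K) n y V T m s) (hb : 0 < b) (hC : 0 < C) (hc : 0 < c)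
    (hε : 0 < ε) (hK : 0 < K) : kn C q n * (52 * Un b q n y T / (n * s ^ 2)) ≤ (ε * hn C q n y T) ^ 2 := by
  obtain ⟨gn0, gy, gV, gT, gm, gs, gL, qL, k0, l1, l2, l3, l4, l5, l6, l7, l8, l9, l10⟩ := h
  obtain ⟨a1, a2, a3, a4, a5, a6, a7, a8, a9, a10, a11, a12, a13, a14, a15⟩ :=
    kn_facts b C c ε K
  have n52 := num_log (x := 52) (by norm_num) (by norm_num)
  have n48 := num_log (x := 48) (by norm_num) (by norm_num)
  have n208 := num_log (x := 208) (by norm_num) (by norm_num)
  have n13 := num_log (x := 13) (by norm_num) (by norm_num)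
  have n250 := num_log (x := 250) (by norm_num) (by norm_num)
  have n2 := num_log (x := 2) (by norm_num) (by norm_num)
  have n3 := num_log (x := 3) (by norm_num) (by norm_num)
  have n4 := num_log (x := 4) (by norm_num) (by norm_num)
  have n8 := num_log (x := 8) (by norm_num) (by norm_num)
  have n10 := num_log (x := 10) (by norm_num) (by norm_num)
  have p48 : 0 ≤ log 48 := Real.log_nonneg (by norm_num)
  have p2 : 0 ≤ log 2 := Real.log_nonneg (by norm_num)
  have b2a : log (b + 2) ≤ |log (b + 2)| := le_abs_self _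
  have b2b : -log (b + 2) ≤ |log (b + 2)| := neg_le_abs _
  have b2c : 0 ≤ |log (b + 2)| := abs_nonneg _
  unfold Kn at k0
  unfold Un hn kn
  refine le_of_log (by positivity) (by positivity) ?_
  simp (disch := positivity) only [Real.log_mul, Real.log_rpow, Real.log_pow, Real.log_div,
    Real.log_sqrt, Real.log_one]
  push_cast
  linarith

lemma nf_st_h (h : Nf q (Kn b C c ε K) n y V T m s) (hb : 0 < b) (hC : 0 < C) (hc : 0 < c)
    (hε : 0 < ε) (hK : 0 < K) : (n : ℝ) ^ (-2 : ℝ) ≤ hn C q n y T := by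
  obtain ⟨gn0, gy, gV, gT, gm, gs, gL, qL, k0, l1, l2, l3, l4, l5, l6, l7, l8, l9, l10⟩ := h
  obtain ⟨a1, a2, a3, a4, a5, a6, a7, a8, a9, a10, a11, a12, a13, a14, a15⟩ :=
    kn_facts b C c ε K
  have n52 := num_log (x := 52) (by norm_num) (by norm_num)
  have n48 := num_log (x := 48) (by norm_num) (by norm_num)
  have n208 := num_log (x := 208) (by norm_num) (by norm_num)
  have n13 := num_log (x := 13) (by norm_num) (by norm_num)
  have n250 := num_log (x := 250) (by norm_num) (by norm_num)
  have n2 := num_log (x := 2) (by norm_num) (by norm_num)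
  have n3 := num_log (x := 3) (by norm_num) (by norm_num)
  have n4 := num_log (x := 4) (by norm_num) (by norm_num)
  have n8 := num_log (x := 8) (by norm_num) (by norm_num)
  have n10 := num_log (x := 10) (by norm_num) (by norm_num)
  have p48 : 0 ≤ log 48 := Real.log_nonneg (by norm_num)
  have p2 : 0 ≤ log 2 := Real.log_nonneg (by norm_num)
  have b2a : log (b + 2) ≤ |log (b + 2)| := le_abs_self _
  have b2b : -log (b + 2) ≤ |log (b + 2)| := neg_le_abs _
  have b2c : 0 ≤ |log (b + 2)| := abs_nonneg _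
  unfold Kn at k0
  unfold hn
  refine le_of_log (by positivity) (by positivity) ?_
  simp (disch := positivity) only [Real.log_mul, Real.log_rpow, Real.log_pow, Real.log_div,
    Real.log_sqrt, Real.log_one]
  push_cast
  linarith

lemma nf_st_1 (h : Nf q (Kn b C c ε K) n y V T m s) (hb : 0 < b) (hC : 0 < C) (hc : 0 < c)
    (hε : 0 < ε) (hK : 0 < K) : (n : ℝ) ^ (-2 : ℝ) ≤ 1 := by
  obtain ⟨gn0, gy, gV, gT, gm, gs, gL, qL, k0, l1, l2, l3, l4, l5, l6, l7, l8, l9, l10⟩ := h
  obtain ⟨a1, a2, a3, a4, a5, a6, a7, a8, a9, a10, a11, a12, a13, a14, a15⟩ :=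
    kn_facts b C c ε K
  have n52 := num_log (x := 52) (by norm_num) (by norm_num)
  have n48 := num_log (x := 48) (by norm_num) (by norm_num)
  have n208 := num_log (x := 208) (by norm_num) (by norm_num)
  have n13 := num_log (x := 13) (by norm_num) (by norm_num)
  have n250 := num_log (x := 250) (by norm_num) (by norm_num)
  have n2 := num_log (x := 2) (by norm_num) (by norm_num)
  have n3 := num_log (x := 3) (by norm_num) (by norm_num)
  have n4 := num_log (x := 4) (by norm_num) (by norm_num)
  have n8 := num_log (x := 8) (by norm_num) (by norm_num)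
  have n10 := num_log (x := 10) (by norm_num) (by norm_num)
  have p48 : 0 ≤ log 48 := Real.log_nonneg (by norm_num)
  have p2 : 0 ≤ log 2 := Real.log_nonneg (by norm_num)
  have b2a : log (b + 2) ≤ |log (b + 2)| := le_abs_self _
  have b2b : -log (b + 2) ≤ |log (b + 2)| := neg_le_abs _
  have b2c : 0 ≤ |log (b + 2)| := abs_nonneg _
  unfold Kn at k0
  refine le_of_log (by positivity) (by positivity) ?_
  simp (disch := positivity) only [Real.log_mul, Real.log_rpow, Real.log_pow, Real.log_div,
    Real.log_sqrt, Real.log_one]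
  push_cast
  linarith

lemma nf_st_K (h : Nf q (Kn b C c ε K) n y V T m s) (hb : 0 < b) (hC : 0 < C) (hc : 0 < c)
    (hε : 0 < ε) (hK : 0 < K) : K * (n : ℝ) ^ (-2 : ℝ) ≤ (ε * hn C q n y T) ^ 2 * √(hn C q n y T) := by
  obtain ⟨gn0, gy, gV, gT, gm, gs, gL, qL, k0, l1, l2, l3, l4, l5, l6, l7, l8, l9, l10⟩ := h
  obtain ⟨a1, a2, a3, a4, a5, a6, a7, a8, a9, a10, a11, a12, a13, a14, a15⟩ :=
    kn_facts b C c ε K
  have n52 := num_log (x := 52) (by norm_num) (by norm_num)
  have n48 := num_log (x := 48) (by norm_num) (by norm_num)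
  have n208 := num_log (x := 208) (by norm_num) (by norm_num)
  have n13 := num_log (x := 13) (by norm_num) (by norm_num)
  have n250 := num_log (x := 250) (by norm_num) (by norm_num)
  have n2 := num_log (x := 2) (by norm_num) (by norm_num)
  have n3 := num_log (x := 3) (by norm_num) (by norm_num)
  have n4 := num_log (x := 4) (by norm_num) (by norm_num)
  have n8 := num_log (x := 8) (by norm_num) (by norm_num)
  have n10 := num_log (x := 10) (by norm_num) (by norm_num)
  have p48 : 0 ≤ log 48 := Real.log_nonneg (by norm_num)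
  have p2 : 0 ≤ log 2 := Real.log_nonneg (by norm_num)
  have b2a : log (b + 2) ≤ |log (b + 2)| := le_abs_self _
  have b2b : -log (b + 2) ≤ |log (b + 2)| := neg_le_abs _
  have b2c : 0 ≤ |log (b + 2)| := abs_nonneg _
  unfold Kn at k0
  unfold hn
  refine le_of_log (by positivity) (by positivity) ?_
  simp (disch := positivity) only [Real.log_mul, Real.log_rpow, Real.log_pow, Real.log_div,
    Real.log_sqrt, Real.log_one]
  push_cast
  linarith

lemma nf_rk_h (h : Nf q (Kn b C c ε K) n y V T m s) (hb : 0 < b) (hC : 0 < C) (hc : 0 < c)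
    (hε : 0 < ε) (hK : 0 < K) : kn C q n * √(13 * Un b q n y T / (n * (y ^ 2 * en q n y T))) ≤ ε * √(hn C q n y T) := by
  obtain ⟨gn0, gy, gV, gT, gm, gs, gL, qL, k0, l1, l2, l3, l4, l5, l6, l7, l8, l9, l10⟩ := h
  obtain ⟨a1, a2, a3, a4, a5, a6, a7, a8, a9, a10, a11, a12, a13, a14, a15⟩ :=
    kn_facts b C c ε K
  have n52 := num_log (x := 52) (by norm_num) (by norm_num)
  have n48 := num_log (x := 48) (by norm_num) (by norm_num)
  have n208 := num_log (x := 208) (by norm_num) (by norm_num)
  have n13 := num_log (x := 13) (by norm_num) (by norm_num)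
  have n250 := num_log (x := 250) (by norm_num) (by norm_num)
  have n2 := num_log (x := 2) (by norm_num) (by norm_num)
  have n3 := num_log (x := 3) (by norm_num) (by norm_num)
  have n4 := num_log (x := 4) (by norm_num) (by norm_num)
  have n8 := num_log (x := 8) (by norm_num) (by norm_num)
  have n10 := num_log (x := 10) (by norm_num) (by norm_num)
  have p48 : 0 ≤ log 48 := Real.log_nonneg (by norm_num)
  have p2 : 0 ≤ log 2 := Real.log_nonneg (by norm_num)
  have b2a : log (b + 2) ≤ |log (b + 2)| := le_abs_self _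
  have b2b : -log (b + 2) ≤ |log (b + 2)| := neg_le_abs _
  have b2c : 0 ≤ |log (b + 2)| := abs_nonneg _
  unfold Kn at k0
  unfold Un en hn kn
  refine le_of_log (by positivity) (by positivity) ?_
  simp (disch := positivity) only [Real.log_mul, Real.log_rpow, Real.log_pow, Real.log_div,
    Real.log_sqrt, Real.log_one]
  push_cast
  linarith

lemma nf_rk_w (h : Nf q (Kn b C c ε K) n y V T m s) (hb : 0 < b) (hC : 0 < C) (hc : 0 < c)
    (hε : 0 < ε) (hK : 0 < K) : 3 * (13 * Un b q n y T / (n * (y ^ 2 * en q n y T))) ≤ (n : ℝ) ^ (-(37 * q)) * y ^ 4 / (4 * T) := by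
  obtain ⟨gn0, gy, gV, gT, gm, gs, gL, qL, k0, l1, l2, l3, l4, l5, l6, l7, l8, l9, l10⟩ := h
  obtain ⟨a1, a2, a3, a4, a5, a6, a7, a8, a9, a10, a11, a12, a13, a14, a15⟩ :=
    kn_facts b C c ε K
  have n52 := num_log (x := 52) (by norm_num) (by norm_num)
  have n48 := num_log (x := 48) (by norm_num) (by norm_num)
  have n208 := num_log (x := 208) (by norm_num) (by norm_num)
  have n13 := num_log (x := 13) (by norm_num) (by norm_num)
  have n250 := num_log (x := 250) (by norm_num) (by norm_num)
  have n2 := num_log (x := 2) (by norm_num) (by norm_num)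
  have n3 := num_log (x := 3) (by norm_num) (by norm_num)
  have n4 := num_log (x := 4) (by norm_num) (by norm_num)
  have n8 := num_log (x := 8) (by norm_num) (by norm_num)
  have n10 := num_log (x := 10) (by norm_num) (by norm_num)
  have p48 : 0 ≤ log 48 := Real.log_nonneg (by norm_num)
  have p2 : 0 ≤ log 2 := Real.log_nonneg (by norm_num)
  have b2a : log (b + 2) ≤ |log (b + 2)| := le_abs_self _
  have b2b : -log (b + 2) ≤ |log (b + 2)| := neg_le_abs _
  have b2c : 0 ≤ |log (b + 2)| := abs_nonneg _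
  unfold Kn at k0
  unfold Un en
  refine le_of_log (by positivity) (by positivity) ?_
  simp (disch := positivity) only [Real.log_mul, Real.log_rpow, Real.log_pow, Real.log_div,
    Real.log_sqrt, Real.log_one]
  push_cast
  linarith

lemma nf_V_h (h : Nf q (Kn b C c ε K) n y V T m s) (hb : 0 < b) (hC : 0 < C) (hc : 0 < c)
    (hε : 0 < ε) (hK : 0 < K) : V ≤ ε * (hn C q n y T * √(hn C q n y T)) := by
  obtain ⟨gn0, gy, gV, gT, gm, gs, gL, qL, k0, l1, l2, l3, l4, l5, l6, l7, l8, l9, l10⟩ := h
  obtain ⟨a1, a2, a3, a4, a5, a6, a7, a8, a9, a10, a11, a12, a13, a14, a15⟩ :=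
    kn_facts b C c ε K
  have n52 := num_log (x := 52) (by norm_num) (by norm_num)
  have n48 := num_log (x := 48) (by norm_num) (by norm_num)
  have n208 := num_log (x := 208) (by norm_num) (by norm_num)
  have n13 := num_log (x := 13) (by norm_num) (by norm_num)
  have n250 := num_log (x := 250) (by norm_num) (by norm_num)
  have n2 := num_log (x := 2) (by norm_num) (by norm_num)
  have n3 := num_log (x := 3) (by norm_num) (by norm_num)
  have n4 := num_log (x := 4) (by norm_num) (by norm_num)
  have n8 := num_log (x := 8) (by norm_num) (by norm_num)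
  have n10 := num_log (x := 10) (by norm_num) (by norm_num)
  have p48 : 0 ≤ log 48 := Real.log_nonneg (by norm_num)
  have p2 : 0 ≤ log 2 := Real.log_nonneg (by norm_num)
  have b2a : log (b + 2) ≤ |log (b + 2)| := le_abs_self _
  have b2b : -log (b + 2) ≤ |log (b + 2)| := neg_le_abs _
  have b2c : 0 ≤ |log (b + 2)| := abs_nonneg _
  unfold Kn at k0
  unfold hn
  refine le_of_log (by positivity) (by positivity) ?_
  simp (disch := positivity) only [Real.log_mul, Real.log_rpow, Real.log_pow, Real.log_div,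
    Real.log_sqrt, Real.log_one]
  push_cast
  linarith

lemma nf_U_h (h : Nf q (Kn b C c ε K) n y V T m s) (hb : 0 < b) (hC : 0 < C) (hc : 0 < c)
    (hε : 0 < ε) (hK : 0 < K) : Un b q n y T ^ 2 ≤ kn C q n * hn C q n y T := by
  obtain ⟨gn0, gy, gV, gT, gm, gs, gL, qL, k0, l1, l2, l3, l4, l5, l6, l7, l8, l9, l10⟩ := h
  obtain ⟨a1, a2, a3, a4, a5, a6, a7, a8, a9, a10, a11, a12, a13, a14, a15⟩ :=
    kn_facts b C c ε K
  have n52 := num_log (x := 52) (by norm_num) (by norm_num)
  have n48 := num_log (x := 48) (by norm_num) (by norm_num)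
  have n208 := num_log (x := 208) (by norm_num) (by norm_num)
  have n13 := num_log (x := 13) (by norm_num) (by norm_num)
  have n250 := num_log (x := 250) (by norm_num) (by norm_num)
  have n2 := num_log (x := 2) (by norm_num) (by norm_num)
  have n3 := num_log (x := 3) (by norm_num) (by norm_num)
  have n4 := num_log (x := 4) (by norm_num) (by norm_num)
  have n8 := num_log (x := 8) (by norm_num) (by norm_num)
  have n10 := num_log (x := 10) (by norm_num) (by norm_num)
  have p48 : 0 ≤ log 48 := Real.log_nonneg (by norm_num)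
  have p2 : 0 ≤ log 2 := Real.log_nonneg (by norm_num)
  have b2a : log (b + 2) ≤ |log (b + 2)| := le_abs_self _
  have b2b : -log (b + 2) ≤ |log (b + 2)| := neg_le_abs _
  have b2c : 0 ≤ |log (b + 2)| := abs_nonneg _
  unfold Kn at k0
  unfold Un hn kn
  refine le_of_log (by positivity) (by positivity) ?_
  simp (disch := positivity) only [Real.log_mul, Real.log_rpow, Real.log_pow, Real.log_div,
    Real.log_sqrt, Real.log_one]
  push_cast
  linarith

lemma nf_G_1 (h : Nf q (Kn b C c ε K) n y V T m s) (hb : 0 < b) (hC : 0 < C) (hc : 0 < c)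
    (hε : 0 < ε) (hK : 0 < K) : 250 * b ^ 2 * ((n : ℝ) ^ q * y ^ 4 / T) ≤ kn C q n * hn C q n y T / 2 := by
  obtain ⟨gn0, gy, gV, gT, gm, gs, gL, qL, k0, l1, l2, l3, l4, l5, l6, l7, l8, l9, l10⟩ := h
  obtain ⟨a1, a2, a3, a4, a5, a6, a7, a8, a9, a10, a11, a12, a13, a14, a15⟩ :=
    kn_facts b C c ε K
  have n52 := num_log (x := 52) (by norm_num) (by norm_num)
  have n48 := num_log (x := 48) (by norm_num) (by norm_num)
  have n208 := num_log (x := 208) (by norm_num) (by norm_num)
  have n13 := num_log (x := 13) (by norm_num) (by norm_num)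
  have n250 := num_log (x := 250) (by norm_num) (by norm_num)
  have n2 := num_log (x := 2) (by norm_num) (by norm_num)
  have n3 := num_log (x := 3) (by norm_num) (by norm_num)
  have n4 := num_log (x := 4) (by norm_num) (by norm_num)
  have n8 := num_log (x := 8) (by norm_num) (by norm_num)
  have n10 := num_log (x := 10) (by norm_num) (by norm_num)
  have p48 : 0 ≤ log 48 := Real.log_nonneg (by norm_num)
  have p2 : 0 ≤ log 2 := Real.log_nonneg (by norm_num)
  have b2a : log (b + 2) ≤ |log (b + 2)| := le_abs_self _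
  have b2b : -log (b + 2) ≤ |log (b + 2)| := neg_le_abs _
  have b2c : 0 ≤ |log (b + 2)| := abs_nonneg _
  unfold Kn at k0
  unfold hn kn
  refine le_of_log (by positivity) (by positivity) ?_
  simp (disch := positivity) only [Real.log_mul, Real.log_rpow, Real.log_pow, Real.log_div,
    Real.log_sqrt, Real.log_one]
  push_cast
  linarith

lemma nf_G_2 (h : Nf q (Kn b C c ε K) n y V T m s) (hb : 0 < b) (hC : 0 < C) (hc : 0 < c)
    (hε : 0 < ε) (hK : 0 < K) : 2 * V ^ 2 ≤ kn C q n * hn C q n y T / 2 := by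
  obtain ⟨gn0, gy, gV, gT, gm, gs, gL, qL, k0, l1, l2, l3, l4, l5, l6, l7, l8, l9, l10⟩ := h
  obtain ⟨a1, a2, a3, a4, a5, a6, a7, a8, a9, a10, a11, a12, a13, a14, a15⟩ :=
    kn_facts b C c ε K
  have n52 := num_log (x := 52) (by norm_num) (by norm_num)
  have n48 := num_log (x := 48) (by norm_num) (by norm_num)
  have n208 := num_log (x := 208) (by norm_num) (by norm_num)
  have n13 := num_log (x := 13) (by norm_num) (by norm_num)
  have n250 := num_log (x := 250) (by norm_num) (by norm_num)
  have n2 := num_log (x := 2) (by norm_num) (by norm_num)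
  have n3 := num_log (x := 3) (by norm_num) (by norm_num)
  have n4 := num_log (x := 4) (by norm_num) (by norm_num)
  have n8 := num_log (x := 8) (by norm_num) (by norm_num)
  have n10 := num_log (x := 10) (by norm_num) (by norm_num)
  have p48 : 0 ≤ log 48 := Real.log_nonneg (by norm_num)
  have p2 : 0 ≤ log 2 := Real.log_nonneg (by norm_num)
  have b2a : log (b + 2) ≤ |log (b + 2)| := le_abs_self _
  have b2b : -log (b + 2) ≤ |log (b + 2)| := neg_le_abs _
  have b2c : 0 ≤ |log (b + 2)| := abs_nonneg _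
  unfold Kn at k0
  unfold hn kn
  refine le_of_log (by positivity) (by positivity) ?_
  simp (disch := positivity) only [Real.log_mul, Real.log_rpow, Real.log_pow, Real.log_div,
    Real.log_sqrt, Real.log_one]
  push_cast
  linarith

lemma nf_pb_m (h : Nf q (Kn b C c ε K) n y V T m s) (hb : 0 < b) (hC : 0 < C) (hc : 0 < c)
    (hε : 0 < ε) (hK : 0 < K) : kn C q n ^ 2 / √m ≤ ε := by
  obtain ⟨gn0, gy, gV, gT, gm, gs, gL, qL, k0, l1, l2, l3, l4, l5, l6, l7, l8, l9, l10⟩ := h
  obtain ⟨a1, a2, a3, a4, a5, a6, a7, a8, a9, a10, a11, a12, a13, a14, a15⟩ :=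
    kn_facts b C c ε K
  have n52 := num_log (x := 52) (by norm_num) (by norm_num)
  have n48 := num_log (x := 48) (by norm_num) (by norm_num)
  have n208 := num_log (x := 208) (by norm_num) (by norm_num)
  have n13 := num_log (x := 13) (by norm_num) (by norm_num)
  have n250 := num_log (x := 250) (by norm_num) (by norm_num)
  have n2 := num_log (x := 2) (by norm_num) (by norm_num)
  have n3 := num_log (x := 3) (by norm_num) (by norm_num)
  have n4 := num_log (x := 4) (by norm_num) (by norm_num)
  have n8 := num_log (x := 8) (by norm_num) (by norm_num)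
  have n10 := num_log (x := 10) (by norm_num) (by norm_num)
  have p48 : 0 ≤ log 48 := Real.log_nonneg (by norm_num)
  have p2 : 0 ≤ log 2 := Real.log_nonneg (by norm_num)
  have b2a : log (b + 2) ≤ |log (b + 2)| := le_abs_self _
  have b2b : -log (b + 2) ≤ |log (b + 2)| := neg_le_abs _
  have b2c : 0 ≤ |log (b + 2)| := abs_nonneg _
  unfold Kn at k0
  unfold kn
  refine le_of_log (by positivity) (by positivity) ?_
  simp (disch := positivity) only [Real.log_mul, Real.log_rpow, Real.log_pow, Real.log_div,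
    Real.log_sqrt, Real.log_one]
  push_cast
  linarith

lemma nf_pb_w (h : Nf q (Kn b C c ε K) n y V T m s) (hb : 0 < b) (hC : 0 < C) (hc : 0 < c)
    (hε : 0 < ε) (hK : 0 < K) : kn C q n ^ 2 / (√((n : ℝ) ^ (-(37 * q)) * y ^ 4) * √n) ≤ ε := by
  obtain ⟨gn0, gy, gV, gT, gm, gs, gL, qL, k0, l1, l2, l3, l4, l5, l6, l7, l8, l9, l10⟩ := h
  obtain ⟨a1, a2, a3, a4, a5, a6, a7, a8, a9, a10, a11, a12, a13, a14, a15⟩ :=
    kn_facts b C c ε K
  have n52 := num_log (x := 52) (by norm_num) (by norm_num)
  have n48 := num_log (x := 48) (by norm_num) (by norm_num)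
  have n208 := num_log (x := 208) (by norm_num) (by norm_num)
  have n13 := num_log (x := 13) (by norm_num) (by norm_num)
  have n250 := num_log (x := 250) (by norm_num) (by norm_num)
  have n2 := num_log (x := 2) (by norm_num) (by norm_num)
  have n3 := num_log (x := 3) (by norm_num) (by norm_num)
  have n4 := num_log (x := 4) (by norm_num) (by norm_num)
  have n8 := num_log (x := 8) (by norm_num) (by norm_num)
  have n10 := num_log (x := 10) (by norm_num) (by norm_num)
  have p48 : 0 ≤ log 48 := Real.log_nonneg (by norm_num)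
  have p2 : 0 ≤ log 2 := Real.log_nonneg (by norm_num)
  have b2a : log (b + 2) ≤ |log (b + 2)| := le_abs_self _
  have b2b : -log (b + 2) ≤ |log (b + 2)| := neg_le_abs _
  have b2c : 0 ≤ |log (b + 2)| := abs_nonneg _
  unfold Kn at k0
  unfold kn
  refine le_of_log (by positivity) (by positivity) ?_
  simp (disch := positivity) only [Real.log_mul, Real.log_rpow, Real.log_pow, Real.log_div,
    Real.log_sqrt, Real.log_one]
  push_cast
  linarith

lemma nf_inc (h : Nf q (Kn b C c ε K) n y V T m s) (hb : 0 < b) (hC : 0 < C) (hc : 0 < c)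
    (hε : 0 < ε) (hK : 0 < K) : 208 * Un b q n y T / m ≤ ε * (hn C q n y T * √(hn C q n y T)) := by
  obtain ⟨gn0, gy, gV, gT, gm, gs, gL, qL, k0, l1, l2, l3, l4, l5, l6, l7, l8, l9, l10⟩ := h
  obtain ⟨a1, a2, a3, a4, a5, a6, a7, a8, a9, a10, a11, a12, a13, a14, a15⟩ :=
    kn_facts b C c ε K
  have n52 := num_log (x := 52) (by norm_num) (by norm_num)
  have n48 := num_log (x := 48) (by norm_num) (by norm_num)
  have n208 := num_log (x := 208) (by norm_num) (by norm_num)
  have n13 := num_log (x := 13) (by norm_num) (by norm_num)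
  have n250 := num_log (x := 250) (by norm_num) (by norm_num)
  have n2 := num_log (x := 2) (by norm_num) (by norm_num)
  have n3 := num_log (x := 3) (by norm_num) (by norm_num)
  have n4 := num_log (x := 4) (by norm_num) (by norm_num)
  have n8 := num_log (x := 8) (by norm_num) (by norm_num)
  have n10 := num_log (x := 10) (by norm_num) (by norm_num)
  have p48 : 0 ≤ log 48 := Real.log_nonneg (by norm_num)
  have p2 : 0 ≤ log 2 := Real.log_nonneg (by norm_num)
  have b2a : log (b + 2) ≤ |log (b + 2)| := le_abs_self _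
  have b2b : -log (b + 2) ≤ |log (b + 2)| := neg_le_abs _
  have b2c : 0 ≤ |log (b + 2)| := abs_nonneg _
  unfold Kn at k0
  unfold Un hn
  refine le_of_log (by positivity) (by positivity) ?_
  simp (disch := positivity) only [Real.log_mul, Real.log_rpow, Real.log_pow, Real.log_div,
    Real.log_sqrt, Real.log_one]
  push_cast
  linarith

lemma nf_m_n (h : Nf q (Kn b C c ε K) n y V T m s) (hb : 0 < b) (hC : 0 < C) (hc : 0 < c)
    (hε : 0 < ε) (hK : 0 < K) : 4 * m ≤ n := by
  obtain ⟨gn0, gy, gV, gT, gm, gs, gL, qL, k0, l1, l2, l3, l4, l5, l6, l7, l8, l9, l10⟩ := h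
  obtain ⟨a1, a2, a3, a4, a5, a6, a7, a8, a9, a10, a11, a12, a13, a14, a15⟩ :=
    kn_facts b C c ε K
  have n52 := num_log (x := 52) (by norm_num) (by norm_num)
  have n48 := num_log (x := 48) (by norm_num) (by norm_num)
  have n208 := num_log (x := 208) (by norm_num) (by norm_num)
  have n13 := num_log (x := 13) (by norm_num) (by norm_num)
  have n250 := num_log (x := 250) (by norm_num) (by norm_num)
  have n2 := num_log (x := 2) (by norm_num) (by norm_num)
  have n3 := num_log (x := 3) (by norm_num) (by norm_num)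
  have n4 := num_log (x := 4) (by norm_num) (by norm_num)
  have n8 := num_log (x := 8) (by norm_num) (by norm_num)
  have n10 := num_log (x := 10) (by norm_num) (by norm_num)
  have p48 : 0 ≤ log 48 := Real.log_nonneg (by norm_num)
  have p2 : 0 ≤ log 2 := Real.log_nonneg (by norm_num)
  have b2a : log (b + 2) ≤ |log (b + 2)| := le_abs_self _
  have b2b : -log (b + 2) ≤ |log (b + 2)| := neg_le_abs _
  have b2c : 0 ≤ |log (b + 2)| := abs_nonneg _
  unfold Kn at k0
  refine le_of_log (by positivity) (by positivity) ?_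
  simp (disch := positivity) only [Real.log_mul, Real.log_rpow, Real.log_pow, Real.log_div,
    Real.log_sqrt, Real.log_one]
  push_cast
  linarith

lemma nf_w_V (h : Nf q (Kn b C c ε K) n y V T m s) (hb : 0 < b) (hC : 0 < C) (hc : 0 < c)
    (hε : 0 < ε) (hK : 0 < K) : (n : ℝ) ^ (-(37 * q)) * y ^ 4 ≤ V / 8 := by
  obtain ⟨gn0, gy, gV, gT, gm, gs, gL, qL, k0, l1, l2, l3, l4, l5, l6, l7, l8, l9, l10⟩ := h
  obtain ⟨a1, a2, a3, a4, a5, a6, a7, a8, a9, a10, a11, a12, a13, a14, a15⟩ :=
    kn_facts b C c ε K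
  have n52 := num_log (x := 52) (by norm_num) (by norm_num)
  have n48 := num_log (x := 48) (by norm_num) (by norm_num)
  have n208 := num_log (x := 208) (by norm_num) (by norm_num)
  have n13 := num_log (x := 13) (by norm_num) (by norm_num)
  have n250 := num_log (x := 250) (by norm_num) (by norm_num)
  have n2 := num_log (x := 2) (by norm_num) (by norm_num)
  have n3 := num_log (x := 3) (by norm_num) (by norm_num)
  have n4 := num_log (x := 4) (by norm_num) (by norm_num)
  have n8 := num_log (x := 8) (by norm_num) (by norm_num)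
  have n10 := num_log (x := 10) (by norm_num) (by norm_num)
  have p48 : 0 ≤ log 48 := Real.log_nonneg (by norm_num)
  have p2 : 0 ≤ log 2 := Real.log_nonneg (by norm_num)
  have b2a : log (b + 2) ≤ |log (b + 2)| := le_abs_self _
  have b2b : -log (b + 2) ≤ |log (b + 2)| := neg_le_abs _
  have b2c : 0 ≤ |log (b + 2)| := abs_nonneg _
  unfold Kn at k0
  refine le_of_log (by positivity) (by positivity) ?_
  simp (disch := positivity) only [Real.log_mul, Real.log_rpow, Real.log_pow, Real.log_div,
    Real.log_sqrt, Real.log_one]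
  push_cast
  linarith

lemma nf_e_V (h : Nf q (Kn b C c ε K) n y V T m s) (hb : 0 < b) (hC : 0 < C) (hc : 0 < c)
    (hε : 0 < ε) (hK : 0 < K) : en q n y T ≤ V / 8 := by
  obtain ⟨gn0, gy, gV, gT, gm, gs, gL, qL, k0, l1, l2, l3, l4, l5, l6, l7, l8, l9, l10⟩ := h
  obtain ⟨a1, a2, a3, a4, a5, a6, a7, a8, a9, a10, a11, a12, a13, a14, a15⟩ :=
    kn_facts b C c ε K
  have n52 := num_log (x := 52) (by norm_num) (by norm_num)
  have n48 := num_log (x := 48) (by norm_num) (by norm_num)
  have n208 := num_log (x := 208) (by norm_num) (by norm_num)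
  have n13 := num_log (x := 13) (by norm_num) (by norm_num)
  have n250 := num_log (x := 250) (by norm_num) (by norm_num)
  have n2 := num_log (x := 2) (by norm_num) (by norm_num)
  have n3 := num_log (x := 3) (by norm_num) (by norm_num)
  have n4 := num_log (x := 4) (by norm_num) (by norm_num)
  have n8 := num_log (x := 8) (by norm_num) (by norm_num)
  have n10 := num_log (x := 10) (by norm_num) (by norm_num)
  have p48 : 0 ≤ log 48 := Real.log_nonneg (by norm_num)
  have p2 : 0 ≤ log 2 := Real.log_nonneg (by norm_num)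
  have b2a : log (b + 2) ≤ |log (b + 2)| := le_abs_self _
  have b2b : -log (b + 2) ≤ |log (b + 2)| := neg_le_abs _
  have b2c : 0 ≤ |log (b + 2)| := abs_nonneg _
  unfold Kn at k0
  unfold en
  refine le_of_log (by positivity) (by positivity) ?_
  simp (disch := positivity) only [Real.log_mul, Real.log_rpow, Real.log_pow, Real.log_div,
    Real.log_sqrt, Real.log_one]
  push_cast
  linarith

lemma nf_s_V (h : Nf q (Kn b C c ε K) n y V T m s) (hb : 0 < b) (hC : 0 < C) (hc : 0 < c)
    (hε : 0 < ε) (hK : 0 < K) : s ^ 2 ≤ V / 2 := by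
  obtain ⟨gn0, gy, gV, gT, gm, gs, gL, qL, k0, l1, l2, l3, l4, l5, l6, l7, l8, l9, l10⟩ := h
  obtain ⟨a1, a2, a3, a4, a5, a6, a7, a8, a9, a10, a11, a12, a13, a14, a15⟩ :=
    kn_facts b C c ε K
  have n52 := num_log (x := 52) (by norm_num) (by norm_num)
  have n48 := num_log (x := 48) (by norm_num) (by norm_num)
  have n208 := num_log (x := 208) (by norm_num) (by norm_num)
  have n13 := num_log (x := 13) (by norm_num) (by norm_num)
  have n250 := num_log (x := 250) (by norm_num) (by norm_num)
  have n2 := num_log (x := 2) (by norm_num) (by norm_num)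
  have n3 := num_log (x := 3) (by norm_num) (by norm_num)
  have n4 := num_log (x := 4) (by norm_num) (by norm_num)
  have n8 := num_log (x := 8) (by norm_num) (by norm_num)
  have n10 := num_log (x := 10) (by norm_num) (by norm_num)
  have p48 : 0 ≤ log 48 := Real.log_nonneg (by norm_num)
  have p2 : 0 ≤ log 2 := Real.log_nonneg (by norm_num)
  have b2a : log (b + 2) ≤ |log (b + 2)| := le_abs_self _
  have b2b : -log (b + 2) ≤ |log (b + 2)| := neg_le_abs _
  have b2c : 0 ≤ |log (b + 2)| := abs_nonneg _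
  unfold Kn at k0
  refine le_of_log (by positivity) (by positivity) ?_
  simp (disch := positivity) only [Real.log_mul, Real.log_rpow, Real.log_pow, Real.log_div,
    Real.log_sqrt, Real.log_one]
  push_cast
  linarith

lemma nf_T_1 (h : Nf q (Kn b C c ε K) n y V T m s) (hb : 0 < b) (hC : 0 < C) (hc : 0 < c)
    (hε : 0 < ε) (hK : 0 < K) : T ≤ 1 := by
  obtain ⟨gn0, gy, gV, gT, gm, gs, gL, qL, k0, l1, l2, l3, l4, l5, l6, l7, l8, l9, l10⟩ := h
  obtain ⟨a1, a2, a3, a4, a5, a6, a7, a8, a9, a10, a11, a12, a13, a14, a15⟩ :=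
    kn_facts b C c ε K
  have n52 := num_log (x := 52) (by norm_num) (by norm_num)
  have n48 := num_log (x := 48) (by norm_num) (by norm_num)
  have n208 := num_log (x := 208) (by norm_num) (by norm_num)
  have n13 := num_log (x := 13) (by norm_num) (by norm_num)
  have n250 := num_log (x := 250) (by norm_num) (by norm_num)
  have n2 := num_log (x := 2) (by norm_num) (by norm_num)
  have n3 := num_log (x := 3) (by norm_num) (by norm_num)
  have n4 := num_log (x := 4) (by norm_num) (by norm_num)
  have n8 := num_log (x := 8) (by norm_num) (by norm_num)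
  have n10 := num_log (x := 10) (by norm_num) (by norm_num)
  have p48 : 0 ≤ log 48 := Real.log_nonneg (by norm_num)
  have p2 : 0 ≤ log 2 := Real.log_nonneg (by norm_num)
  have b2a : log (b + 2) ≤ |log (b + 2)| := le_abs_self _
  have b2b : -log (b + 2) ≤ |log (b + 2)| := neg_le_abs _
  have b2c : 0 ≤ |log (b + 2)| := abs_nonneg _
  unfold Kn at k0
  refine le_of_log (by positivity) (by positivity) ?_
  simp (disch := positivity) only [Real.log_mul, Real.log_rpow, Real.log_pow, Real.log_div,
    Real.log_sqrt, Real.log_one]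
  push_cast
  linarith

lemma nf_V_1 (h : Nf q (Kn b C c ε K) n y V T m s) (hb : 0 < b) (hC : 0 < C) (hc : 0 < c)
    (hε : 0 < ε) (hK : 0 < K) : V ≤ 1 := by
  obtain ⟨gn0, gy, gV, gT, gm, gs, gL, qL, k0, l1, l2, l3, l4, l5, l6, l7, l8, l9, l10⟩ := h
  obtain ⟨a1, a2, a3, a4, a5, a6, a7, a8, a9, a10, a11, a12, a13, a14, a15⟩ :=
    kn_facts b C c ε K
  have n52 := num_log (x := 52) (by norm_num) (by norm_num)
  have n48 := num_log (x := 48) (by norm_num) (by norm_num)
  have n208 := num_log (x := 208) (by norm_num) (by norm_num)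
  have n13 := num_log (x := 13) (by norm_num) (by norm_num)
  have n250 := num_log (x := 250) (by norm_num) (by norm_num)
  have n2 := num_log (x := 2) (by norm_num) (by norm_num)
  have n3 := num_log (x := 3) (by norm_num) (by norm_num)
  have n4 := num_log (x := 4) (by norm_num) (by norm_num)
  have n8 := num_log (x := 8) (by norm_num) (by norm_num)
  have n10 := num_log (x := 10) (by norm_num) (by norm_num)
  have p48 : 0 ≤ log 48 := Real.log_nonneg (by norm_num)
  have p2 : 0 ≤ log 2 := Real.log_nonneg (by norm_num)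
  have b2a : log (b + 2) ≤ |log (b + 2)| := le_abs_self _
  have b2b : -log (b + 2) ≤ |log (b + 2)| := neg_le_abs _
  have b2c : 0 ≤ |log (b + 2)| := abs_nonneg _
  unfold Kn at k0
  refine le_of_log (by positivity) (by positivity) ?_
  simp (disch := positivity) only [Real.log_mul, Real.log_rpow, Real.log_pow, Real.log_div,
    Real.log_sqrt, Real.log_one]
  push_cast
  linarith

lemma nf_y_c (h : Nf q (Kn b C c ε K) n y V T m s) (hb : 0 < b) (hC : 0 < C) (hc : 0 < c)
    (hε : 0 < ε) (hK : 0 < K) : y ≤ c / 4 := by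
  obtain ⟨gn0, gy, gV, gT, gm, gs, gL, qL, k0, l1, l2, l3, l4, l5, l6, l7, l8, l9, l10⟩ := h
  obtain ⟨a1, a2, a3, a4, a5, a6, a7, a8, a9, a10, a11, a12, a13, a14, a15⟩ :=
    kn_facts b C c ε K
  have n52 := num_log (x := 52) (by norm_num) (by norm_num)
  have n48 := num_log (x := 48) (by norm_num) (by norm_num)
  have n208 := num_log (x := 208) (by norm_num) (by norm_num)
  have n13 := num_log (x := 13) (by norm_num) (by norm_num)
  have n250 := num_log (x := 250) (by norm_num) (by norm_num)
  have n2 := num_log (x := 2) (by norm_num) (by norm_num)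
  have n3 := num_log (x := 3) (by norm_num) (by norm_num)
  have n4 := num_log (x := 4) (by norm_num) (by norm_num)
  have n8 := num_log (x := 8) (by norm_num) (by norm_num)
  have n10 := num_log (x := 10) (by norm_num) (by norm_num)
  have p48 : 0 ≤ log 48 := Real.log_nonneg (by norm_num)
  have p2 : 0 ≤ log 2 := Real.log_nonneg (by norm_num)
  have b2a : log (b + 2) ≤ |log (b + 2)| := le_abs_self _
  have b2b : -log (b + 2) ≤ |log (b + 2)| := neg_le_abs _
  have b2c : 0 ≤ |log (b + 2)| := abs_nonneg _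
  unfold Kn at k0
  refine le_of_log (by positivity) (by positivity) ?_
  simp (disch := positivity) only [Real.log_mul, Real.log_rpow, Real.log_pow, Real.log_div,
    Real.log_sqrt, Real.log_one]
  push_cast
  linarith

lemma nf_y_b (h : Nf q (Kn b C c ε K) n y V T m s) (hb : 0 < b) (hC : 0 < C) (hc : 0 < c)
    (hε : 0 < ε) (hK : 0 < K) : y * (b + 2) ≤ 1 / 4 := by
  obtain ⟨gn0, gy, gV, gT, gm, gs, gL, qL, k0, l1, l2, l3, l4, l5, l6, l7, l8, l9, l10⟩ := h
  obtain ⟨a1, a2, a3, a4, a5, a6, a7, a8, a9, a10, a11, a12, a13, a14, a15⟩ :=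
    kn_facts b C c ε K
  have n52 := num_log (x := 52) (by norm_num) (by norm_num)
  have n48 := num_log (x := 48) (by norm_num) (by norm_num)
  have n208 := num_log (x := 208) (by norm_num) (by norm_num)
  have n13 := num_log (x := 13) (by norm_num) (by norm_num)
  have n250 := num_log (x := 250) (by norm_num) (by norm_num)
  have n2 := num_log (x := 2) (by norm_num) (by norm_num)
  have n3 := num_log (x := 3) (by norm_num) (by norm_num)
  have n4 := num_log (x := 4) (by norm_num) (by norm_num)
  have n8 := num_log (x := 8) (by norm_num) (by norm_num)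
  have n10 := num_log (x := 10) (by norm_num) (by norm_num)
  have p48 : 0 ≤ log 48 := Real.log_nonneg (by norm_num)
  have p2 : 0 ≤ log 2 := Real.log_nonneg (by norm_num)
  have b2a : log (b + 2) ≤ |log (b + 2)| := le_abs_self _
  have b2b : -log (b + 2) ≤ |log (b + 2)| := neg_le_abs _
  have b2c : 0 ≤ |log (b + 2)| := abs_nonneg _
  unfold Kn at k0
  refine le_of_log (by positivity) (by positivity) ?_
  simp (disch := positivity) only [Real.log_mul, Real.log_rpow, Real.log_pow, Real.log_div,
    Real.log_sqrt, Real.log_one]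
  push_cast
  linarith

lemma nf_y_1 (h : Nf q (Kn b C c ε K) n y V T m s) (hb : 0 < b) (hC : 0 < C) (hc : 0 < c)
    (hε : 0 < ε) (hK : 0 < K) : y ≤ 1 / 4 := by
  obtain ⟨gn0, gy, gV, gT, gm, gs, gL, qL, k0, l1, l2, l3, l4, l5, l6, l7, l8, l9, l10⟩ := h
  obtain ⟨a1, a2, a3, a4, a5, a6, a7, a8, a9, a10, a11, a12, a13, a14, a15⟩ :=
    kn_facts b C c ε K
  have n52 := num_log (x := 52) (by norm_num) (by norm_num)
  have n48 := num_log (x := 48) (by norm_num) (by norm_num)
  have n208 := num_log (x := 208) (by norm_num) (by norm_num)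
  have n13 := num_log (x := 13) (by norm_num) (by norm_num)
  have n250 := num_log (x := 250) (by norm_num) (by norm_num)
  have n2 := num_log (x := 2) (by norm_num) (by norm_num)
  have n3 := num_log (x := 3) (by norm_num) (by norm_num)
  have n4 := num_log (x := 4) (by norm_num) (by norm_num)
  have n8 := num_log (x := 8) (by norm_num) (by norm_num)
  have n10 := num_log (x := 10) (by norm_num) (by norm_num)
  have p48 : 0 ≤ log 48 := Real.log_nonneg (by norm_num)
  have p2 : 0 ≤ log 2 := Real.log_nonneg (by norm_num)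
  have b2a : log (b + 2) ≤ |log (b + 2)| := le_abs_self _
  have b2b : -log (b + 2) ≤ |log (b + 2)| := neg_le_abs _
  have b2c : 0 ≤ |log (b + 2)| := abs_nonneg _
  unfold Kn at k0
  refine le_of_log (by positivity) (by positivity) ?_
  simp (disch := positivity) only [Real.log_mul, Real.log_rpow, Real.log_pow, Real.log_div,
    Real.log_sqrt, Real.log_one]
  push_cast
  linarith

lemma nf_k_1 (h : Nf q (Kn b C c ε K) n y V T m s) (hb : 0 < b) (hC : 0 < C) (hc : 0 < c)
    (hε : 0 < ε) (hK : 0 < K) : 1 ≤ kn C q n := by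
  obtain ⟨gn0, gy, gV, gT, gm, gs, gL, qL, k0, l1, l2, l3, l4, l5, l6, l7, l8, l9, l10⟩ := h
  obtain ⟨a1, a2, a3, a4, a5, a6, a7, a8, a9, a10, a11, a12, a13, a14, a15⟩ :=
    kn_facts b C c ε K
  have n52 := num_log (x := 52) (by norm_num) (by norm_num)
  have n48 := num_log (x := 48) (by norm_num) (by norm_num)
  have n208 := num_log (x := 208) (by norm_num) (by norm_num)
  have n13 := num_log (x := 13) (by norm_num) (by norm_num)
  have n250 := num_log (x := 250) (by norm_num) (by norm_num)
  have n2 := num_log (x := 2) (by norm_num) (by norm_num)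
  have n3 := num_log (x := 3) (by norm_num) (by norm_num)
  have n4 := num_log (x := 4) (by norm_num) (by norm_num)
  have n8 := num_log (x := 8) (by norm_num) (by norm_num)
  have n10 := num_log (x := 10) (by norm_num) (by norm_num)
  have p48 : 0 ≤ log 48 := Real.log_nonneg (by norm_num)
  have p2 : 0 ≤ log 2 := Real.log_nonneg (by norm_num)
  have b2a : log (b + 2) ≤ |log (b + 2)| := le_abs_self _
  have b2b : -log (b + 2) ≤ |log (b + 2)| := neg_le_abs _
  have b2c : 0 ≤ |log (b + 2)| := abs_nonneg _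
  unfold Kn at k0
  unfold kn
  refine le_of_log (by positivity) (by positivity) ?_
  simp (disch := positivity) only [Real.log_mul, Real.log_rpow, Real.log_pow, Real.log_div,
    Real.log_sqrt, Real.log_one]
  push_cast
  linarith

/-- **All the comparisons.** -/
theorem nf_all (h : Nf q (Kn b C c ε K) n y V T m s) (hb : 0 < b) (hC : 0 < C) (hC1 : 1 ≤ C)
    (hc : 0 < c) (hε : 0 < ε) (hK : 0 < K) : Nc b C c ε K q n y V T m s :=
  ⟨nf_k_m h hb hC hc hε hK,
    nf_k_gg h hb hC hc hε hK,
    nf_gg1 h hb hC hc hε hK,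
    nf_T_h h hb hC hc hε hK,
    nf_m_h h hb hC hc hε hK,
    nf_al_h h hb hC hc hε hK,
    nf_al_1 h hb hC hc hε hK,
    nf_y_h h hb hC hc hε hK,
    nf_y_k h hb hC hc hε hK,
    nf_eta_k h hb hC hc hε hK,
    nf_eta_k2 h hb hC hc hε hK,
    nf_eta_1 h hb hC hc hε hK,
    nf_X_e h hb hC hc hε hK,
    nf_X_s h hb hC hc hε hK,
    nf_st_h h hb hC hc hε hK,
    nf_st_1 h hb hC hc hε hK,
    nf_st_K h hb hC hc hε hK,
    nf_rk_h h hb hC hc hε hK,
    nf_rk_w h hb hC hc hε hK,
    nf_V_h h hb hC hc hε hK,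
    nf_U_h h hb hC hc hε hK,
    nf_G_1 h hb hC hc hε hK,
    nf_G_2 h hb hC hc hε hK,
    nf_pb_m h hb hC hc hε hK,
    nf_pb_w h hb hC hc hε hK,
    nf_inc h hb hC hc hε hK,
    nf_m_n h hb hC hc hε hK,
    nf_w_V h hb hC hc hε hK,
    nf_e_V h hb hC hc hε hK,
    nf_s_V h hb hC hc hε hK,
    nf_T_1 h hb hC hc hε hK,
    nf_V_1 h hb hC hc hε hK,
    nf_y_c h hb hC hc hε hK,
    nf_y_b h hb hC hc hε hK,
    nf_y_1 h hb hC hc hε hK,
    nf_k_1 h hb hC hc hε hK⟩

end

/-- **The window gives the logarithmic window.** -/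
theorem nf_ev {a0 b₁ q A b : ℝ} (Kc : ℝ) (hq : 0 < q) (ha0 : a0 ≤ 1 / 6) (hb₁ : 100 * q < b₁)
    (hA : 1 ≤ A) :
    ∀ᶠ n : ℕ in atTop, ∀ y V al s lam η : ℝ, H418.KW a0 b₁ q A b n y V al s lam η →
      (n : ℝ) ^ (-(80 * q)) * V ≤ A * s ^ 2 →
      ∀ T, (n : ℝ) ^ (-(37 * q)) * y ^ 4 ≤ T → T ≤ (n : ℝ) ^ (-(70 * q)) * y ^ 2 →
      1 ≤ (n : ℝ) ^ (-(40 * q)) * (n * T) ∧
      ∀ m ∈ Finset.Icc ⌈(n : ℝ) ^ (-(40 * q)) * (n * T)⌉₊
        (2 * ⌈(n : ℝ) ^ (-(40 * q)) * (n * T)⌉₊), Nf q Kc n y V T m s := by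
  filter_upwards [env_ev (a0 := a0) (b₁ := b₁) (d := 24 * q) (Kc + |log A|) hq hA,
    env_ev (a0 := a0) (b₁ := b₁) (d := 24 * q) |log A| hq hA,
    env_ev (a0 := a0) (b₁ := b₁) (d := 24 * q) Kc hq hA] with n e3 e4 e5
  intro y V al s lam η h hR T h1 h2
  have k0 := (e5 y V h.yl h.yu h.Vl h.Vu).cst
  have k1 := (e4 y V h.yl h.yu h.Vl h.Vu).cst
  obtain ⟨n0, y0, V0, L1, qL, cst, ll, yl, yu, Vl, Vu⟩ := e3 y V h.yl h.yu h.Vl h.Vu
  have s0 := h.s0
  have hA0 : 0 < A := by linarith
  have c2 : log A ≤ |log A| := le_abs_self _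
  have hL0 : 0 < log n := by linarith
  have T0 : 0 < T := lt_of_lt_of_le (by positivity) h1
  have hT1 := Real.log_le_log (by positivity) h1
  have hT2 := Real.log_le_log T0 h2
  have hs1 := Real.log_le_log (by positivity) hR
  have hs2 := Real.log_le_log (by positivity) h.s2
  simp (disch := positivity) only [Real.log_mul, Real.log_rpow, Real.log_pow] at hT1 hT2 hs1 hs2
  push_cast at hT1 hT2 hs1 hs2
  have hb1 : 100 * (q * log n) ≤ b₁ * log n := by
    have := mul_le_mul_of_nonneg_right hb₁.le hL0.le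
    linarith
  have ha1 : a0 * log n ≤ 1 / 6 * log n := mul_le_mul_of_nonneg_right ha0 hL0.le
  have hx1 : 1 ≤ (n : ℝ) ^ (-(40 * q)) * (n * T) := by
    refine le_of_log one_pos (by positivity) ?_
    simp (disch := positivity) only [Real.log_mul, Real.log_rpow, Real.log_one]
    linarith
  refine ⟨hx1, fun m hm => ?_⟩
  have hm' := Finset.mem_Icc.1 hm
  have hc1 : (n : ℝ) ^ (-(40 * q)) * (n * T) ≤ m :=
    (Nat.le_ceil _).trans (by exact_mod_cast hm'.1)
  have hc2 : (m : ℝ) ≤ 4 * ((n : ℝ) ^ (-(40 * q)) * (n * T)) := by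
    have g3 := Nat.ceil_lt_add_one (show 0 ≤ (n : ℝ) ^ (-(40 * q)) * (n * T) by positivity)
    have g4 : (m : ℝ) ≤ 2 * ⌈(n : ℝ) ^ (-(40 * q)) * (n * T)⌉₊ := by exact_mod_cast hm'.2
    linarith
  have m0 : (0 : ℝ) < m := by linarith
  have g6 := Real.log_le_log (by positivity) hc1
  have g7 := Real.log_le_log m0 hc2
  have h4 : Real.log 4 ≤ 2 := by
    have h2 := Real.log_le_sub_one_of_pos (x := 2) two_pos
    have e : (4 : ℝ) = 2 ^ 2 := by norm_num
    rw [e, Real.log_pow]
    push_cast
    linarith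
  simp (disch := positivity) only [Real.log_mul, Real.log_rpow] at g6 g7
  exact ⟨n0, y0, V0, T0, m0, s0, hL0, qL, k0, by linarith, by linarith, by linarith,
    by linarith, by linarith, by linarith, by linarith, by linarith, by linarith, by linarith⟩

end Vale.Agent.P146.H757
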