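import Vale.Agent.P146.H757.NeSize
import Vale.Agent.P146.H757.NeCondF

/-!
# P146: the near end in the ensemble `U`, all the numbers

`ne_core`: for a law with the standing sizes and the comparisons `Nc` the near end estimate with the
modulated field revealed, at `1 - T / 2`, with hidden sites and hidden windows of both fields.
-/

open MeasureTheory ProbabilityTheory

namespace Vale.Agent.P146.H757

open Vale.Agent.P157.Lv hiding Dep
open Vale.Agent.P146.H425 Vale.Agent.P146.H332 Vale.Agent.P146.H646 Vale.Agent.P146.H196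
  Vale.Agent.P146.H246 Vale.Agent.P146.H347 Vale.Agent.P146.H325 Vale.Agent.P146.H816
  Vale.Agent.P146.H475
  Vale.Agent.P146.H281.U Vale.Agent.P146.H615 Vale.Agent.P146.H463 Vale.Agent.P146.H418
  Vale.Agent.P146.H585.U Vale.Agent.P146.H412.G Vale.Agent.P146.H698 Vale.Agent.P146.H698.Br
  Vale.Agent.P146.H347.U
open Vale.Agent.P146.H9.U (cbU cfU FLU canU cbU_sq sum_fst)
open Vale.Agent.P146.H412 (prs gn gain gain_lm Cp)

set_option linter.unusedSectionVars false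

variable {L : Law}

lemma stL_nonneg (hl : 0 < L.lam) (hη : 0 ≤ L.η) (t u g : ℝ) : 0 ≤ stL L t u g := by
  have hGM := gmU (n := L.n) L.b (cbU t) (L.cfg u g) L.η (nuL_fin L hl hη) (nuL_ne L hl hη)
    (amU_aG L hη)
  have hw := H347.wt hGM 1 L.x
  have h1 : Bm fun w : (Unit → ℝ) × Xs L.n => 1 - ins L.η (w.1 ()) :=
    (Bm.const 1).sub (bm_insU L.η ())
  refine ex_nonneg hw fun z => ?_
  refine (av_gm hGM 1).nonneg h1 (fun ω => ?_) z
  have h3 := ins_le L.η (ω.1 ())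
  show 0 ≤ 1 - ins L.η (ω.1 ())
  linarith

/-- the conditions on the constants -/
structure Kc (b C c ε K : ℝ) : Prop where
  b0 : 0 < b
  C1 : 1 ≤ C
  Cb : 272 < C * b ^ 4
  c0 : c = H355.cK (b ^ 2 + 4)
  ε0 : 0 < ε
  ε1 : ε ≤ 1
  εK : ε * (10 ^ 12 * K ^ 4) ≤ c ^ 2
  εc : 100000 * ε ≤ c
  K1 : 6 ≤ K
  Kb : 4 / b ≤ K
  Kb2 : b ^ 2 ≤ K
  Kb3 : 2 / b ^ 2 ≤ K
  Kb0 : 48 * (b + 2) ^ 2 + 6 ≤ K

/-- there are such constants -/
theorem kc_exists {b : ℝ} (hb : 0 < b) : ∃ C c ε K, Kc b C c ε K := by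
  set c := H355.cK (b ^ 2 + 4) with hc
  have hc0 : 0 < c := H355.cK_pos (by positivity)
  set K := 6 + 48 * (b + 2) ^ 2 + b ^ 2 + 4 / b + 2 / b ^ 2 with hK
  have h1 : 0 < 4 / b := by positivity
  have h2 : 0 < 2 / b ^ 2 := by positivity
  have h3 : 0 < b ^ 2 := by positivity
  have h4 : 0 < (b + 2) ^ 2 := by positivity
  have hK0 : 0 < K := by rw [hK]; positivity
  refine ⟨1 + 300 / b ^ 4, c, min (min 1 (c ^ 2 / (10 ^ 12 * K ^ 4))) (c / 100000), K,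
    ⟨hb, ?_, ?_, rfl, ?_, ?_, ?_, ?_, ?_, ?_, ?_, ?_, ?_⟩⟩
  · have : 0 < 300 / b ^ 4 := by positivity
    linarith
  · have : (1 + 300 / b ^ 4) * b ^ 4 = b ^ 4 + 300 := by field_simp
    rw [this]
    have : 0 < b ^ 4 := by positivity
    linarith
  · refine lt_min (lt_min one_pos (by positivity)) (by positivity)
  · exact (min_le_left _ _).trans (min_le_left _ _)
  · have h5 : min (min 1 (c ^ 2 / (10 ^ 12 * K ^ 4))) (c / 100000) ≤
        c ^ 2 / (10 ^ 12 * K ^ 4) := (min_le_left _ _).trans (min_le_right _ _)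
    have h6 : 0 < 10 ^ 12 * K ^ 4 := by positivity
    calc _ ≤ c ^ 2 / (10 ^ 12 * K ^ 4) * (10 ^ 12 * K ^ 4) :=
          mul_le_mul_of_nonneg_right h5 h6.le
      _ = c ^ 2 := by field_simp
  · have h5 : min (min 1 (c ^ 2 / (10 ^ 12 * K ^ 4))) (c / 100000) ≤ c / 100000 :=
      min_le_right _ _
    linarith
  · rw [hK]; linarith
  · rw [hK]; linarith
  · rw [hK]; linarith
  · rw [hK]; linarith
  · rw [hK]; linarith

section core

variable {b C c ε K q : ℝ} {n : ℕ} {y V T m s : ℝ}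

lemma Kc.K0 (h : Kc b C c ε K) : 0 < K := by linarith [h.K1]

lemma Kc.cpos (h : Kc b C c ε K) : 0 < c := by
  have h1 := h.εc
  have h2 := h.ε0
  linarith

lemma hn_pos (h : Kc b C c ε K) (hn0 : (0 : ℝ) < n) (hy : 0 < y) (hT : 0 < T) :
    0 < H757.hn C q n y T := by
  have := h.C1
  unfold H757.hn
  positivity

/-- the numbers of the step -/
theorem neNum_of (k : Kc b C c ε K) (N : Nc b C c ε K q n y V T m s) (hn0 : (0 : ℝ) < n)
    (hy : 0 < y) (hT : 0 < T) (hm : 0 < m) (hs : 0 < s) {η lam r0 d st : ℝ}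
    (hη0 : 0 ≤ η) (hη : η ≤ (n : ℝ) ^ (-(2000 * q))) (hl : 0 < lam)
    (hgg : lam ≤ (n : ℝ) ^ (-(3800 * q)) * y ^ 2 * (s ^ 2 * n)) (hr0 : |r0| + 1 ≤ 2 * K)
    (hd : d = s ^ 2 ∨ d = en q n y T) (hst0 : 0 ≤ st) (hst : st ≤ (n : ℝ) ^ (-2 : ℝ)) :
    NeNum K c ε (kn C q n) (H757.hn C q n y T) y η r0 (lam / (s ^ 2 * n)) m
      (52 * Un b q n y T / (n * d)) st (13 * Un b q n y T / (n * (y ^ 2 * en q n y T)))
      (4 * (ε * H757.hn C q n y T)) V := by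
  have hh := hn_pos (q := q) k hn0 hy hT
  have hK0 := k.K0
  have hε0 := k.ε0
  have hκ := N.k_1
  have hκ0 : 0 < kn C q n := by linarith
  have hU0 : 0 ≤ Un b q n y T := Real.sqrt_nonneg _
  have he0 : 0 < en q n y T := by
    unfold en
    positivity
  have hd0 : 0 < d := by
    rcases hd with h | h <;> rw [h]
    · positivity
    · exact he0
  have hgg' : lam / (s ^ 2 * n) ≤ (n : ℝ) ^ (-(3800 * q)) * y ^ 2 := by
    rw [div_le_iff₀ (by positivity)]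
    exact hgg
  have hgg0 : 0 ≤ lam / (s ^ 2 * n) := by positivity
  refine ⟨by linarith [k.K1], k.cpos, hε0, k.ε1, k.εK, hκ, hh, hy.le, N.y_h, N.y_k, hη0,
    ?_, ?_, hr0, hgg0, hgg'.trans N.gg1, ?_, hm, N.k_m, by positivity, ?_, hst0,
    hst.trans N.st_h, hst.trans N.st_1, ?_, by positivity, N.rk_h, ?_, N.V_h⟩
  · have := N.eta_1
    linarith
  · exact (mul_le_mul_of_nonneg_right hη hκ0.le).trans N.eta_k
  · exact (mul_le_mul_of_nonneg_left hgg' hκ0.le).trans N.k_gg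
  · rcases hd with h | h <;> rw [h]
    · exact N.X_s
    · exact N.X_e
  · exact (mul_le_mul_of_nonneg_left hst hK0.le).trans N.st_K
  · have h1 : 0 < ε * H757.hn C q n y T := by positivity
    exact mul_le_mul_of_nonneg_right (by linarith [k.K1]) h1.le

/-- the bad event of the fourth cumulant -/
theorem pb_of (k : Kc b C c ε K) (N : Nc b C c ε K q n y V T m s) (hn0 : (0 : ℝ) < n)
    (hy : 0 < y) (hm : 0 < m) (hs : 0 < s) {η w vp : ℝ}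
    (hη0 : 0 ≤ η) (hη : η ≤ (n : ℝ) ^ (-(2000 * q)))
    (hw : (n : ℝ) ^ (-(37 * q)) * y ^ 4 ≤ w) (hvp : s ^ 2 ≤ vp) :
    22 * kn C q n * √(pbN (b ^ 2 + 4) n m w η s vp) ≤ 1 := by
  have hκ0 : 0 < kn C q n := by linarith [N.k_1]
  have hc0 := k.cpos
  have hε0 := k.ε0
  have hw0 : 0 < (n : ℝ) ^ (-(37 * q)) * y ^ 4 := by positivity
  have hw0' : 0 < w := by linarith
  have hvp0 : 0 < vp := lt_of_lt_of_le (by positivity) hvp
  have e1 : kn C q n ^ 2 * (1 / √m) ≤ ε := by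
    have := N.pb_m
    rw [mul_one_div]
    exact this
  have e2 : kn C q n ^ 2 * (1 / (√w * √(n : ℝ))) ≤ ε := by
    rw [mul_one_div]
    refine le_trans ?_ N.pb_w
    have h1 : 0 < √(n : ℝ) := Real.sqrt_pos.2 hn0
    have h2 : 0 < √((n : ℝ) ^ (-(37 * q)) * y ^ 4) := Real.sqrt_pos.2 hw0
    have h3 : √((n : ℝ) ^ (-(37 * q)) * y ^ 4) ≤ √w := Real.sqrt_le_sqrt hw
    gcongr
  have e3 : kn C q n ^ 2 * (2 * η * s / √vp) ≤ 2 * ε := by
    have h1 : s ≤ √vp := Real.le_sqrt_of_sq_le hvp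
    have h2 : 0 < √vp := Real.sqrt_pos.2 hvp0
    have h3 : s / √vp ≤ 1 := by
      rw [div_le_one h2]
      exact h1
    have h4 : 0 ≤ s / √vp := by positivity
    calc kn C q n ^ 2 * (2 * η * s / √vp) = 2 * (η * kn C q n ^ 2) * (s / √vp) := by ring
      _ ≤ 2 * ((n : ℝ) ^ (-(2000 * q)) * kn C q n ^ 2) * 1 := by gcongr
      _ ≤ 2 * ε := by linarith [N.eta_k2]
  have hpb0 : 0 ≤ pbN (b ^ 2 + 4) n m w η s vp := by
    unfold pbN
    rw [← k.c0]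
    positivity
  have e4 : kn C q n ^ 2 * pbN (b ^ 2 + 4) n m w η s vp ≤ 128 * ε / c := by
    unfold pbN
    rw [← k.c0]
    calc kn C q n ^ 2 * (32 / c * (1 / √m + (1 / (√w * √(n : ℝ)) + 2 * η * s / √vp))) =
          32 / c * (kn C q n ^ 2 * (1 / √m) + (kn C q n ^ 2 * (1 / (√w * √(n : ℝ))) +
            kn C q n ^ 2 * (2 * η * s / √vp))) := by ring
      _ ≤ 32 / c * (ε + (ε + 2 * ε)) := by gcongr
      _ = _ := by ring
  have e5 : 484 * (128 * ε / c) ≤ 1 := by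
    rw [mul_div_assoc', div_le_one hc0]
    linarith [k.εc]
  have e6 : (22 * kn C q n * √(pbN (b ^ 2 + 4) n m w η s vp)) ^ 2 ≤ 1 := by
    calc (22 * kn C q n * √(pbN (b ^ 2 + 4) n m w η s vp)) ^ 2 =
          484 * (kn C q n ^ 2 * √(pbN (b ^ 2 + 4) n m w η s vp) ^ 2) := by ring
      _ = 484 * (kn C q n ^ 2 * pbN (b ^ 2 + 4) n m w η s vp) := by rw [Real.sq_sqrt hpb0]
      _ ≤ 484 * (128 * ε / c) := by linarith
      _ ≤ 1 := e5
  have h9 : 0 ≤ 22 * kn C q n * √(pbN (b ^ 2 + 4) n m w η s vp) := by positivity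
  nlinarith

end core

section num

variable {b C c ε K q : ℝ} {n : ℕ} {y V T : ℝ}

/-- the slope -/
theorem slope_of (k : Kc b C c ε K) {al : ℝ} (hy : 0 < y) (y1 : y ≤ 1 / 4) (al1 : |al| ≤ 1 / 4) :
    ∃ kp r0, kp = (1 + al) / b ∧ kp = 1 - (1 - y) * r0 ∧ 0 < kp ∧ b * kp = 1 + al ∧ kp ≤ K ∧
      |r0| + 1 ≤ 2 * K := by
  have hb := k.b0
  obtain ⟨kp, hkp⟩ : ∃ kp, kp = (1 + al) / b := ⟨_, rfl⟩
  obtain ⟨r0, hr0⟩ : ∃ r0, r0 = (1 - kp) / (1 - y) := ⟨_, rfl⟩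
  have hx1 : 0 < 1 - y := by linarith
  have al3 := abs_le.1 al1
  have hkp0 : 0 < kp := by
    rw [hkp]
    have : 0 < 1 + al := by linarith [al3.1]
    positivity
  have hkp1 : kp ≤ 2 / b := by
    rw [hkp]
    apply div_le_div_of_nonneg_right _ hb.le
    linarith [al3.2]
  have h42 : 2 * (2 / b) = 4 / b := by ring
  have h20 : 0 < 2 / b := by positivity
  have hKb := k.Kb
  have hK1 := k.K1
  refine ⟨kp, r0, hkp, ?_, hkp0, ?_, by linarith, ?_⟩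
  · rw [hr0]
    field_simp
    ring
  · rw [hkp]
    field_simp
  · have h1 : |r0| ≤ 2 * (1 + kp) := by
      rw [hr0, abs_div, abs_of_pos hx1, div_le_iff₀ hx1]
      have h2 : |1 - kp| ≤ 1 + kp := by
        rw [abs_le]
        constructor <;> linarith
      have h3 : 2 * (1 + kp) * (1 - y) ≥ 2 * (1 + kp) * (1 / 2) := by
        apply mul_le_mul_of_nonneg_left _ (by positivity)
        linarith
      linarith
    linarith

/-- the gain in the units of the overlap -/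
theorem gg_le (hn0 : (0 : ℝ) < n) (hy : 0 < y) (hb : 0 < b) (hT : 0 < T) {t a : ℝ}
    (ht : T / 4 ≤ 1 - t) (ha : 0 ≤ a) :
    a * ((n : ℝ) ^ (1 + q) * y ^ 6) / (y ^ 2 * b ^ 2 * (1 - t) * n) ≤
      4 * a * ((n : ℝ) ^ q * y ^ 4 / T) / b ^ 2 := by
  have h1t : 0 < 1 - t := by linarith
  have e1 : a * ((n : ℝ) ^ (1 + q) * y ^ 6) / (y ^ 2 * b ^ 2 * (1 - t) * n) =
      a * ((n : ℝ) ^ q * y ^ 4) / (b ^ 2 * (1 - t)) := by
    rw [Real.rpow_add hn0, Real.rpow_one]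
    field_simp
  rw [e1, div_le_iff₀ (by positivity)]
  have e2 : 4 * a * ((n : ℝ) ^ q * y ^ 4 / T) / b ^ 2 * (b ^ 2 * (1 - t)) =
      a * ((n : ℝ) ^ q * y ^ 4) * ((1 - t) / (T / 4)) := by
    field_simp
  rw [e2]
  have e3 : 1 ≤ (1 - t) / (T / 4) := by
    rw [le_div_iff₀ (by positivity)]
    linarith
  exact le_mul_of_one_le_right (by positivity) e3

lemma Un_sq (b q : ℝ) (n : ℕ) (y : ℝ) (hy : 0 < y) (hT : 0 < T) :
    Un b q n y T ^ 2 = 4 * 12 * ((n : ℝ) ^ q * y ^ 4 / T) / b ^ 2 := by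
  unfold Un
  rw [Real.sq_sqrt (by positivity)]
  by_cases hb : b = 0
  · rw [hb]
    simp
  · field_simp
    ring

theorem g4_le (hb : 0 < b) {Z t uv : ℝ} (hZ : 0 ≤ Z) (ht0 : 0 ≤ t) (ht1 : t ≤ 1)
    (hu0 : 0 ≤ uv) (huV : uv ≤ V) :
    2 * (b ^ 2 * t) ^ 4 * (4 * 43 * Z / b ^ 2) ^ 2 + 2 * uv ^ 4 ≤
      (250 * b ^ 2 * Z + 2 * V ^ 2) ^ 2 := by
  have hb2 : 0 < b ^ 2 := by positivity
  have hV : 0 ≤ V := hu0.trans huV
  have a1 : (b ^ 2 * t) ^ 4 ≤ (b ^ 2) ^ 4 := by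
    refine pow_le_pow_left₀ (by positivity) ?_ 4
    exact mul_le_of_le_one_right hb2.le ht1
  have a2 : 2 * (b ^ 2 * t) ^ 4 * (4 * 43 * Z / b ^ 2) ^ 2 ≤
      2 * (b ^ 2) ^ 4 * (4 * 43 * Z / b ^ 2) ^ 2 := by gcongr
  have a3 : 2 * (b ^ 2) ^ 4 * (4 * 43 * Z / b ^ 2) ^ 2 = 59168 * (b ^ 2 * Z) ^ 2 := by
    field_simp
    ring
  have a4 : uv ^ 4 ≤ V ^ 4 := pow_le_pow_left₀ hu0 huV 4
  have a5 : (250 * b ^ 2 * Z + 2 * V ^ 2) ^ 2 = 62500 * (b ^ 2 * Z) ^ 2 +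
      1000 * (b ^ 2 * Z * V ^ 2) + 4 * V ^ 4 := by ring
  rw [a5]
  have a6 : 0 ≤ (b ^ 2 * Z) ^ 2 := sq_nonneg _
  have a7 : 0 ≤ b ^ 2 * Z * V ^ 2 := by positivity
  have a8 : 0 ≤ V ^ 4 := by positivity
  linarith

theorem inc_le {N m m1 U : ℝ} (hm : 0 < m) (hm1 : 0 < m1) (h2 : m ≤ 2 * m1) (h4 : 4 * m ≤ N)
    (hU : 0 ≤ U) : 13 * (N * (4 * U)) / m1 / (N - m) ≤ 208 * U / m := by
  have h1 : N / 2 ≤ N - m := by linarith
  have h3 : 0 < N - m := by linarith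
  have hN : 0 < N := by linarith
  rw [div_div, div_le_div_iff₀ (by positivity) hm]
  have h4 : m * (N / 2) ≤ 2 * m1 * (N - m) :=
    mul_le_mul h2 h1 (by positivity) (by positivity)
  have h5 := mul_le_mul_of_nonneg_left h4 (show 0 ≤ 104 * U by positivity)
  linarith

theorem rr_le {N m al t e : ℝ} (hN : 0 < N) (hm : 0 < m) (h4 : 4 * m ≤ N) (al1 : |al| ≤ 1 / 4)
    (hT0 : 0 < T) (hT1 : T ≤ 1) (ht : 1 - T / 2 ≤ t) (h1 : m / N ≤ e) (h2 : |al| ≤ e)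
    (h3 : T ≤ e) : N / (N - m) - (1 + al) ^ 2 * t ≤ 4 * e := by
  have hNm : 0 < N - m := by linarith
  have al0 := abs_nonneg al
  have h4 : N / (N - m) ≤ 1 + 4 / 3 * (m / N) := by
    rw [div_le_iff₀ hNm]
    have h5 : (1 + 4 / 3 * (m / N)) * (N - m) = N + m / 3 - 4 / 3 * (m * (m / N)) := by
      field_simp
      ring
    rw [h5]
    have h6 : m / N ≤ 1 / 4 := by
      rw [div_le_iff₀ hN]
      linarith
    have h7 : m * (m / N) ≤ m * (1 / 4) := mul_le_mul_of_nonneg_left h6 hm.le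
    linarith
  have h5 : 1 - 2 * |al| - T / 2 ≤ (1 + al) ^ 2 * t := by
    have h6 : 1 - 2 * |al| ≤ (1 + al) ^ 2 := by
      have := neg_abs_le al
      have := sq_nonneg al
      calc 1 - 2 * |al| ≤ 1 + 2 * al := by linarith
        _ ≤ 1 + 2 * al + al ^ 2 := by linarith
        _ = _ := by ring
    have h7 : 0 ≤ 1 - 2 * |al| := by linarith
    have h8 : 0 ≤ |al| * T := by positivity
    calc 1 - 2 * |al| - T / 2 ≤ 1 - 2 * |al| - T / 2 + |al| * T := by linarith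
      _ = (1 - 2 * |al|) * (1 - T / 2) := by ring
      _ ≤ (1 + al) ^ 2 * t := mul_le_mul h6 ht (by linarith) (sq_nonneg _)
  linarith

/-- the last comparison -/
theorem fin_abs (k : Kc b C c ε K) {w t r rk y2 : ℝ} (hw : 0 < w) (hT : 0 < T) (t0 : 1 / 2 ≤ t)
    (h1 : w / (2 * T) < r) (hrk : 3 * rk ≤ w / (4 * T))
    (hfin : (b ^ 2 * t) ^ 2 * (r - 3 * rk) ≤ 17 * y2) (hlt : y2 < w / (C * T)) : False := by
  have hb := k.b0
  have hC := k.C1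
  have hCb := k.Cb
  have hb2 : 0 < b ^ 2 := by positivity
  have h2 : w / (4 * T) ≤ r - 3 * rk := by
    have e1 : w / (2 * T) = w / (4 * T) + w / (4 * T) := by
      field_simp
      ring
    linarith
  have h3 : (b ^ 2 * (1 / 2)) ^ 2 ≤ (b ^ 2 * t) ^ 2 := by
    refine pow_le_pow_left₀ (by positivity) ?_ 2
    exact mul_le_mul_of_nonneg_left t0 hb2.le
  have h4 : (b ^ 2 * (1 / 2)) ^ 2 * (w / (4 * T)) ≤ (b ^ 2 * t) ^ 2 * (r - 3 * rk) :=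
    mul_le_mul h3 h2 (by positivity) (sq_nonneg _)
  have h5 : (b ^ 2 * (1 / 2)) ^ 2 * (w / (4 * T)) < 17 * (w / (C * T)) := by
    linarith
  have h7 : (b ^ 2 * (1 / 2)) ^ 2 * (w / (4 * T)) = w / T * (b ^ 4 / 16) := by
    field_simp
    ring
  have h8 : 17 * (w / (C * T)) = w / T * (17 / C) := by
    field_simp
  rw [h7, h8] at h5
  have h9 : 0 < w / T := by positivity
  have h10 : b ^ 4 / 16 < 17 / C := lt_of_mul_lt_mul_left h5 h9.le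
  rw [div_lt_div_iff₀ (by norm_num) (by linarith)] at h10
  linarith

end num

/-- the standing hypotheses on the law -/
structure LawH (L : Law) (q al : ℝ) : Prop where
  l0 : 0 < L.lam
  η0 : 0 < L.η
  η1 : L.η ≤ (L.n : ℝ) ^ (-(2000 * q))
  v0 : 0 < L.vp
  s0 : 0 < L.s
  x0 : 0 < L.x
  n0 : 0 < L.n
  gg : L.lam ≤ (L.n : ℝ) ^ (-(3800 * q)) * L.x ^ 2 * (L.s ^ 2 * L.n)
  ah : |al| ≤ 4 * L.b * ((L.n : ℝ) ^ (q / 2) * L.x ^ 5 / (L.vp + L.s ^ 2))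
  ch : L.c = H529.cc L.n L.b L.s al
  xb : L.x ^ 2 * L.b ^ 2 ≤ 4
  gnh : gn L 0 0 ≤ (L.n : ℝ) ^ (1 + q) * L.x ^ 6
  G1 : 1 ≤ (L.n : ℝ) ^ (1 + q) * L.x ^ 6
  st : ∀ t ∈ Set.Icc (0 : ℝ) 1, ∀ u ∈ Set.Icc (0 : ℝ) 1, ∀ g ∈ Set.Icc (0 : ℝ) 1,
    stL L t u g ≤ (L.n : ℝ) ^ (-2 : ℝ)

/-- **The mean square of `Y` at a typical point.** -/
theorem ne_point {C c ε K q al T : ℝ} (k : Kc L.b C c ε K) (H : LawH L q al) (hT : 0 < T)
    {t u g d : ℝ} (ht : 1 - T / 2 ≤ t) (htT : t ≤ 1 - T / 4) (hu0 : 0 ≤ u) (hu1 : u < 1)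
    (hw : (L.n : ℝ) ^ (-(37 * q)) * L.x ^ 4 ≤ L.vp * (1 - u)) (hg0 : 0 ≤ g) (hg1 : g ≤ 1)
    {m m1 : ℕ} (hm0 : 1 ≤ m) (hm1 : 1 ≤ m1) (h2 : m ≤ 2 * m1)
    (Nm : Nc L.b C c ε K q L.n L.x (L.vp + L.s ^ 2) T m L.s)
    (hd : d = L.s ^ 2 ∨ d = en q L.n L.x T)
    (p2 : rkL L (Sn L.n m) t u g ≤ (L.n : ℝ) ^ 2 *
      (13 * Un L.b q L.n L.x T / (L.n * (L.x ^ 2 * en q L.n L.x T))))
    (p3 : x2L L (Sn L.n m) t u g ≤ (L.n : ℝ) ^ 2 * (52 * Un L.b q L.n L.x T / (L.n * d)))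
    (p4 : ∀ i0 : Fin L.n, i0.1 + m = L.n →
      icL L (Sn L.n m) i0 t u g ≤ 13 * (L.n * (4 * Un L.b q L.n L.x T)) / m1) :
    y2L L (Sn L.n m) t u g < H757.hn C q L.n L.x T := by
  have hn0 : (0 : ℝ) < L.n := by exact_mod_cast H.n0
  have hb := k.b0
  have hT1 : T ≤ 1 := Nm.T_1
  have hm4 : 4 * (m : ℝ) ≤ L.n := Nm.m_n
  have hmr : (0 : ℝ) < m := by exact_mod_cast hm0
  have hm1r : (0 : ℝ) < m1 := by exact_mod_cast hm1
  have hmn : m < L.n := by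
    have : (m : ℝ) < L.n := by linarith
    exact_mod_cast this
  have t0 : 1 / 2 ≤ t := by linarith
  have t1 : t < 1 := by linarith
  have htT' : T / 4 ≤ 1 - t := by linarith
  have y1 := Nm.y_1
  have sV := Nm.s_V
  have hsv : L.s ^ 2 ≤ L.vp := by linarith
  have al1 : |al| ≤ 1 / 4 := H.ah.trans Nm.al_1
  have al2 : |al| ≤ ε * H757.hn C q L.n L.x T := H.ah.trans Nm.al_h
  obtain ⟨kp, r0, hkp, hkr, hkp0, hkpb, hkpK, hr0K⟩ := slope_of k H.x0 y1 al1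
  have hcL : L.c = L.s ^ 2 * L.n * kp := by
    rw [H.ch, hkp]
    unfold H529.cc
    ring
  have hU0 : 0 ≤ Un L.b q L.n L.x T := Real.sqrt_nonneg _
  have hst0 := stL_nonneg (L := L) H.l0 H.η0.le t u g
  have hstb := H.st t ⟨by linarith, t1.le⟩ u ⟨hu0, hu1.le⟩ g ⟨hg0, hg1⟩
  have NN := neNum_of k Nm hn0 H.x0 hT hmr H.s0 (η := L.η) (lam := L.lam) (r0 := r0)
    (d := d) (st := stL L t u g) H.η0.le H.η1 H.l0 H.gg hr0K hd hst0 hstb
  rw [k.c0] at NN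
  have hη1 := NN.η1
  have hη0 := H.η0
  obtain ⟨Z, hZ⟩ : ∃ Z, Z = (L.n : ℝ) ^ q * L.x ^ 4 / T := ⟨_, rfl⟩
  have hx0 := H.x0
  have hZ0 : 0 < Z := by rw [hZ]; positivity
  have hR : ∀ S : Finset (Fin L.n), r2L L S t u g ≤ (L.n * Un L.b q L.n L.x T) ^ 2 := fun S => by
    refine (r2L_le H.l0 hη0.le H.v0 H.s0 hx0 H.n0 hb.ne' H.xb (by linarith) t1 hu0 hu1.le hg0
      hg1 H.gnh H.G1 S).trans ?_
    rw [mul_pow, Un_sq L.b q L.n L.x hx0 hT]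
    exact mul_le_mul_of_nonneg_left (gg_le hn0 hx0 hb hT htT' (by norm_num)) (by positivity)
  have hQ4 : q4L L (Sn L.n m) t u g ≤ (L.n : ℝ) ^ 4 * (4 * 43 * Z / L.b ^ 2) ^ 2 := by
    refine (q4L_le H.l0 hη0.le H.v0 H.s0 hx0 H.n0 hb.ne' H.xb (by linarith) t1 hu0 hu1.le hg0
      hg1 H.gnh H.G1 (by linarith) (Sn L.n m)).trans ?_
    refine mul_le_mul_of_nonneg_left (pow_le_pow_left₀ ?_ ?_ 2) (by positivity)
    · have h1t : 0 < 1 - t := by linarith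
      positivity
    · rw [hZ]
      exact gg_le hn0 hx0 hb hT htT' (by norm_num)
  obtain ⟨V, hV⟩ : ∃ V, V = L.vp + L.s ^ 2 := ⟨_, rfl⟩
  have hvp := H.v0
  have huV0 : 0 ≤ u * L.vp := by positivity
  have hs2 : 0 ≤ L.s ^ 2 := sq_nonneg _
  have huV : u * L.vp ≤ V := by
    calc u * L.vp ≤ 1 * L.vp := mul_le_mul_of_nonneg_right hu1.le hvp.le
      _ ≤ V := by rw [hV]; linarith
  have hG4 := g4_le (b := L.b) (Z := Z) (t := t) hb hZ0.le (by linarith) t1.le huV0 huV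
  have hV0 : 0 ≤ V := huV0.trans huV
  have hGκ : 250 * L.b ^ 2 * Z + 2 * V ^ 2 ≤ kn C q L.n * H757.hn C q L.n L.x T := by
    have a1 := Nm.G_1
    have a2 := Nm.G_2
    rw [← hZ] at a1
    rw [← hV] at a2
    linarith
  have hpb : 22 * kn C q L.n * √(pbN (L.b ^ 2 + 4) L.n m (L.vp * (1 - u)) L.η L.s L.vp) ≤ 1 :=
    pb_of k Nm hn0 hx0 hmr H.s0 hη0.le H.η1 hw hsv
  have hI' : 13 * (L.n * (4 * Un L.b q L.n L.x T)) / m1 / (L.n - m) ≤
      ε * (H757.hn C q L.n L.x T * √(H757.hn C q L.n L.x T)) :=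
    (inc_le hmr hm1r (by exact_mod_cast h2) hm4 hU0).trans Nm.inc
  have hrr : L.n / (L.n - m) - (L.b * kp) ^ 2 * t ≤ 4 * (ε * H757.hn C q L.n L.x T) := by
    rw [hkpb]
    exact rr_le hn0 hmr hm4 al1 hT hT1 ht Nm.m_h al2 Nm.T_h
  have hb2 : 0 < L.b ^ 2 := by positivity
  have hbt : L.b ^ 2 * t ≤ K := by
    have := k.Kb2
    have h1 : L.b ^ 2 * t ≤ L.b ^ 2 * 1 := mul_le_mul_of_nonneg_left t1.le hb2.le
    linarith
  have hKb : 1 ≤ K * (L.b ^ 2 * t) := by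
    have h1 := k.Kb3
    have h2 : L.b ^ 2 * (1 / 2) ≤ L.b ^ 2 * t := mul_le_mul_of_nonneg_left t0 hb2.le
    calc (1 : ℝ) = 2 / L.b ^ 2 * (L.b ^ 2 * (1 / 2)) := by field_simp
      _ ≤ K * (L.b ^ 2 * t) := mul_le_mul h1 h2 (by positivity) k.K0.le
  have hη9 : (1 + L.η) ^ 2 ≤ 2 ^ 2 := pow_le_pow_left₀ (by linarith) (by linarith) 2
  have V1 := Nm.V_1
  have hbb2 : L.b ^ 2 + (1 + L.η) ^ 2 * (L.vp + L.s ^ 2) ≤ L.b ^ 2 + 4 := by
    have h1 : (1 + L.η) ^ 2 * (L.vp + L.s ^ 2) ≤ 2 ^ 2 * 1 :=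
      mul_le_mul hη9 V1 (by positivity) (by norm_num)
    linarith
  have hxK : L.x ≤ H355.cK (L.b ^ 2 + 4) / 4 := by
    rw [← k.c0]
    exact Nm.y_c
  have hb04 : L.b ^ 2 + 4 ≤ (L.b + 2) ^ 2 := by
    have : (L.b + 2) ^ 2 = L.b ^ 2 + 4 + 4 * L.b := by ring
    linarith
  exact neL_lt (L := L) H.l0 hη0.le H.v0 H.s0 hx0 (by linarith) H.n0 (t := t) (u := u) (g := g)
    (by linarith) t1.le hu0 hu1 hg0 hg1 (m := m) hm0 hmn hkr hcL hkp0
    (b2 := L.b ^ 2 + 4) (b0 := L.b + 2) (by positivity) hxK hbb2 (by positivity) Nm.y_b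
    hb04 NN (U := Un L.b q L.n L.x T) (G := 250 * L.b ^ 2 * Z + 2 * V ^ 2)
    (I := 13 * (L.n * (4 * Un L.b q L.n L.x T)) / m1) (g4 := (4 * 43 * Z / L.b ^ 2) ^ 2) hU0
    Nm.U_h hR p3 p2 hQ4 (by positivity) hG4 hGκ hpb p4 hI' hrr hkpK k.Kb0
    hbt (by rw [← hV]; exact huV) hKb


/-- the windows of the shares -/
theorem win_abs {w e vp s2 : ℝ} (hw : 0 < w) (he : 0 < e) (hv : 0 < vp) (hs : 0 < s2)
    (hwe : w + e ≤ vp) : ∃ u0 u1 g0 : ℝ, u0 = 1 - (w + e) / vp ∧ g0 = max 0 (1 - e / s2) ∧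
      0 ≤ u0 ∧ u0 < u1 ∧ u1 < 1 ∧ vp * (u1 - u0) = e ∧ vp * (1 - u1) = w ∧ 0 ≤ g0 ∧ g0 < 1 ∧
      (s2 * (1 - g0) = s2 ∨ s2 * (1 - g0) = e) := by
  have h1 : vp * (1 - w / vp - (1 - (w + e) / vp)) = e := by
    field_simp
    ring
  have h2 : vp * (1 - (1 - w / vp)) = w := by
    field_simp
    ring
  refine ⟨1 - (w + e) / vp, 1 - w / vp, max 0 (1 - e / s2), rfl, rfl, ?_, ?_, ?_, h1, h2,
    le_max_left _ _, ?_, ?_⟩
  · have : (w + e) / vp ≤ 1 := by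
      rw [div_le_one hv]
      exact hwe
    linarith
  · by_contra h
    push Not at h
    have h3 : vp * (1 - w / vp - (1 - (w + e) / vp)) ≤ 0 :=
      mul_nonpos_of_nonneg_of_nonpos hv.le (by linarith)
    linarith
  · have : 0 < w / vp := by positivity
    linarith
  · refine max_lt zero_lt_one ?_
    have : 0 < e / s2 := by positivity
    linarith
  · rcases le_total 0 (1 - e / s2) with h | h
    · right
      rw [max_eq_right h]
      field_simp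
      ring
    · left
      rw [max_eq_left h]
      ring

/-- **The near end, all the numbers.** -/
theorem ne_core {C c ε K q al T : ℝ} (k : Kc L.b C c ε K) (H : LawH L q al) (hT : 0 < T)
    (hff : ∀ u ∈ Set.Icc (0 : ℝ) 1, ∀ S : Finset (Fin L.n),
      L.ffg S (1 - T / 4) u 1 ≤ L.n * Un L.b q L.n L.x T)
    (hfa : ∀ u ∈ Set.Icc (0 : ℝ) 1, ∀ S : Finset (Fin L.n),
      L.fag S (1 - T / 4) u 1 ≤ L.n * (4 * Un L.b q L.n L.x T)) {m1 : ℕ} (hm1 : 1 ≤ m1)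
    (N : ∀ m ∈ Finset.Icc m1 (2 * m1),
      Nc L.b C c ε K q L.n L.x (L.vp + L.s ^ 2) T m L.s) :
    T * L.rrg (Sn L.n (2 * m1)) (1 - T / 2)
      (1 - ((L.n : ℝ) ^ (-(37 * q)) * L.x ^ 4 + en q L.n L.x T) / L.vp)
      (max 0 (1 - en q L.n L.x T / L.s ^ 2)) ≤
        1 / 2 * ((L.n : ℝ) ^ (-(37 * q)) * L.x ^ 4) := by
  by_contra hcon
  push Not at hcon
  have hn0 : (0 : ℝ) < L.n := by exact_mod_cast H.n0
  have hb := k.b0
  have hx0 := H.x0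
  have hv := H.v0
  have hs0 := H.s0
  have N1 := N m1 (Finset.mem_Icc.2 ⟨le_rfl, by omega⟩)
  obtain ⟨w, hw⟩ : ∃ w, w = (L.n : ℝ) ^ (-(37 * q)) * L.x ^ 4 := ⟨_, rfl⟩
  obtain ⟨e, he⟩ : ∃ e, e = en q L.n L.x T := ⟨_, rfl⟩
  have hw0 : 0 < w := by rw [hw]; positivity
  have he0 : 0 < e := by
    rw [he]
    unfold en
    positivity
  have hs2 : 0 < L.s ^ 2 := by positivity
  have wV := N1.w_V
  have eV := N1.e_V
  have sV := N1.s_V
  have y1 := N1.y_1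
  rw [← hw, ← he] at hcon
  rw [← hw] at wV
  rw [← he] at eV
  obtain ⟨u0, u1, g0, hu0, hg0, u00, u01, u11, hue, huw, g00, g01, hd⟩ :=
    win_abs hw0 he0 hv hs2 (by linarith)
  rw [← hu0, ← hg0] at hcon
  have u1m : u1 ∈ Set.Icc (0 : ℝ) 1 := ⟨by linarith, u11.le⟩
  obtain ⟨t, ht, u, hu, g, hg, m, hm, p1, p2, p3, p4⟩ := neL_pt (L := L) H.l0 H.η0.le hv hs0 hx0
    (by linarith) H.n0 hb (T := T) (u0 := u0) (u1 := u1) (g0 := g0)
    (U := Un L.b q L.n L.x T) hT N1.T_1 u00 u01 u11.le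
    g00 g01 hm1 (hff u1 u1m) (hfa u1 u1m)
  have hm' := Finset.mem_Icc.1 hm
  have Nm := N m hm
  have uu1 : u < 1 := lt_of_le_of_lt hu.2 u11
  have hrk : rkL L (Sn L.n m) t u g ≤ (L.n : ℝ) ^ 2 *
      (13 * Un L.b q L.n L.x T / (L.n * (L.x ^ 2 * en q L.n L.x T))) := by
    refine p2.trans (le_of_eq ?_)
    rw [hue, ← he]
    field_simp
  have hX : x2L L (Sn L.n m) t u g ≤
      (L.n : ℝ) ^ 2 * (52 * Un L.b q L.n L.x T / (L.n * (L.s ^ 2 * (1 - g0)))) := by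
    refine p3.trans (le_of_eq ?_)
    have h1 : 0 < 1 - g0 := by linarith
    field_simp
    ring
  have hwu : (L.n : ℝ) ^ (-(37 * q)) * L.x ^ 4 ≤ L.vp * (1 - u) := by
    rw [← hw, ← huw]
    exact mul_le_mul_of_nonneg_left (by linarith [hu.2]) hv.le
  have hlt := ne_point k H hT ht.1 ht.2 (u00.trans hu.1) uu1 hwu (g00.trans hg.1) hg.2
    (hm1.trans hm'.1) hm1 hm'.2 Nm (by rw [← he]; exact hd) hrk hX p4
  have hη10 : L.η ≤ 1 / 10 := H.η1.trans Nm.eta_1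
  have hT1 := N1.T_1
  have t0 : 1 / 2 ≤ t := by linarith [ht.1]
  have hfin := rrg_le_y2 (L := L) H.l0 H.η0.le hη10 hv.le H.n0 (Sn L.n m) (t := t) (u := u)
    (g := g) (by linarith) (u00.trans hu.1) hrk
  have hrkw := Nm.rk_w
  rw [← hw] at hrkw
  have h1 : w / (2 * T) < L.rrg (Sn L.n m) t u g := by
    refine lt_of_lt_of_le ?_ p1
    rw [div_lt_iff₀ (by positivity)]
    linarith
  have h6 : H757.hn C q L.n L.x T = w / (C * T) := by
    unfold H757.hn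
    rw [hw]
  rw [h6] at hlt
  exact fin_abs k hw0 hT t0 h1 hrkw hfin hlt

end Vale.Agent.P146.H757
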