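import Vale.Agent.P146.H585.NeUn
import Vale.Agent.P146.H463.SizeU
import Vale.Agent.P146.H320.TypX
import Vale.Agent.P146.H442.N7U

/-!
# P146: the near end in the ensemble `U`, the pair numbers against the means

`F2_le`: the sum of the squares of the two point functions is at most `17 |M|⁴` plus three times the
rank defect; in the ensemble `U`: `R2U_ex`, `rrg_le`, `Y2U_ge`, `QsU_sq`, and the a priori sizes
`R2U_le`, `q4U_le` from the gain.
-/

open MeasureTheory ProbabilityTheory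

namespace Vale.Agent.P146.H757

open Vale.Agent.P157.Lv hiding Dep
open Vale.Agent.P146.H425 Vale.Agent.P146.H332 Vale.Agent.P146.H646 Vale.Agent.P146.H196
  Vale.Agent.P146.H347 Vale.Agent.P146.H325 Vale.Agent.P146.H816 Vale.Agent.P146.H475
  Vale.Agent.P146.H281.U Vale.Agent.P146.H615 Vale.Agent.P146.H463 Vale.Agent.P146.H418
  Vale.Agent.P146.H585.U Vale.Agent.P146.H412.G Vale.Agent.P146.H698 Vale.Agent.P146.H698.Br
  Vale.Agent.P146.H347.U

set_option linter.unusedSectionVars false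

section gm

variable {κ s : Type} [Fintype κ] [DecidableEq κ] [Fintype s] [DecidableEq s]
variable {Ω : Type} [MeasurableSpace Ω] {m : Measure Ω} {M0 : ℝ} {E : κ → Ω → ℝ}
variable {σ : s → Ω → ℝ} {a : Ω → ℝ}

/-- the two point functions against the means of the weighted spins -/
theorem F2_le (hG : GM m E M0) {η : ℝ} (hη : 0 ≤ η) (hη1 : η ≤ 1 / 10) (x : ℝ) (K : Finset κ)
    (ha : Bd a) (hs : ∀ j, Bd (σ j)) (haη : ∀ ω, |a ω - 1| ≤ η) (S : Finset s) (z : κ → ℝ) :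
    F2 m E x K σ S z ≤
      17 * m2 S (Mg m E x K a σ) z ^ 2 + 3 * RKg m E x K σ S z := by
  have hw := H347.wt hG 1 x
  set c : (Ω → ℝ) → ℝ := fun h => cx (H347.g1 κ) K (Zxm m 1 E x) (avm m 1 E h) z with hc
  have ha1 : Bd fun ω => a ω - 1 := by
    have := ha.add (Bd.const (-1))
    simpa only [sub_eq_add_neg] using this
  set d : s → ℝ := fun j => c fun ω => (a ω - 1) * σ j ω with hd
  set M : s → ℝ := fun j => c fun ω => a ω * σ j ω with hM
  set mm : s → ℝ := fun j => c fun ω => σ j ω with hmm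
  have eM : ∀ j, M j = mm j + d j := by
    intro j
    have e := cxav_add hG x K (h := σ j) (g := fun ω => (a ω - 1) * σ j ω) (hs j)
      (ha1.mul (hs j)) z
    have e' : (fun ω => σ j ω + (a ω - 1) * σ j ω) = fun ω => a ω * σ j ω := by
      funext ω; ring
    rw [e'] at e
    exact e
  have hF0 : 0 ≤ F2 m E x K σ S z := F2_nonneg x K _ _ z
  set F := F2 m E x K σ S z with hF
  have hds : ∑ j ∈ S, d j ^ 2 ≤ η ^ 2 * √F := H320.wsum_le hG x K hs ha1 haη S z
  have hA : m2 S (Mg m E x K a σ) z = ∑ j ∈ S, M j ^ 2 := rfl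
  rw [hA]
  set A := ∑ j ∈ S, M j ^ 2 with hAd
  have hA0 : 0 ≤ A := Finset.sum_nonneg fun _ _ => sq_nonneg _
  set B := ∑ j ∈ S, mm j ^ 2 with hBd
  have hB0 : 0 ≤ B := Finset.sum_nonneg fun _ _ => sq_nonneg _
  have hB : B ≤ 2 * A + 2 * (η ^ 2 * √F) := by
    have h1 : B ≤ ∑ j ∈ S, (2 * M j ^ 2 + 2 * d j ^ 2) := by
      refine Finset.sum_le_sum fun j _ => ?_
      rw [eM j]
      nlinarith [sq_nonneg (mm j + 2 * d j)]
    rw [Finset.sum_add_distrib, ← Finset.mul_sum, ← Finset.mul_sum] at h1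
    linarith
  have hsF : √F ^ 2 = F := Real.sq_sqrt hF0
  have hB2 : B ^ 2 ≤ 8 * A ^ 2 + 8 * (η ^ 4 * F) := by
    have h1 : B ^ 2 ≤ (2 * A + 2 * (η ^ 2 * √F)) ^ 2 := pow_le_pow_left₀ hB0 hB 2
    have h2 : (η ^ 2 * √F) ^ 2 = η ^ 4 * F := by
      rw [mul_pow, hsF]
      ring
    nlinarith [sq_nonneg (A - η ^ 2 * √F)]
  have hR : RKg m E x K σ S z =
      ∑ j ∈ S, ∑ l ∈ S, (c (fun ω => σ j ω * σ l ω) - mm j * mm l) ^ 2 := rfl
  have hF' : F = ∑ j ∈ S, ∑ l ∈ S, (c (fun ω => σ j ω * σ l ω)) ^ 2 := rfl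
  have h1 : F ≤ 2 * RKg m E x K σ S z + 2 * B ^ 2 := by
    have e2 : B ^ 2 = ∑ j ∈ S, ∑ l ∈ S, (mm j * mm l) ^ 2 := by
      rw [sq, hBd, Finset.sum_mul_sum]
      exact Finset.sum_congr rfl fun j _ => Finset.sum_congr rfl fun l _ => by ring
    rw [hR, e2, hF', Finset.mul_sum, Finset.mul_sum, ← Finset.sum_add_distrib]
    refine Finset.sum_le_sum fun j _ => ?_
    rw [Finset.mul_sum, Finset.mul_sum, ← Finset.sum_add_distrib]
    refine Finset.sum_le_sum fun l _ => ?_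
    nlinarith [sq_nonneg (c (fun ω => σ j ω * σ l ω) - 2 * (mm j * mm l))]
  have hR0 : 0 ≤ RKg m E x K σ S z := RKg_nonneg z S
  have h4 : η ^ 4 ≤ 1 / 10000 := by
    calc η ^ 4 ≤ (1 / 10) ^ 4 := pow_le_pow_left₀ hη hη1 4
      _ = _ := by norm_num
  have h5 : η ^ 4 * F ≤ 1 / 10000 * F := mul_le_mul_of_nonneg_right h4 hF0
  have hA2 : 0 ≤ A ^ 2 := sq_nonneg A
  linarith

end gm

section U

variable {Θ : Type} [MeasurableSpace Θ] {n : ℕ} {LB LF : Type} [Fintype LB] [DecidableEq LB]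
  [Fintype LF] [DecidableEq LF] {ν : Measure Θ} {b x η : ℝ} {cB : LB → ℝ} {cF : LF → ℝ}
  {a : LF → Θ → ℝ}

/-- the sum of the mean squares as the mean of the sum -/
theorem R2U_ex (hν : IsFiniteMeasure ν) (h0 : ν ≠ 0) (hA : AmU a η) (K : Finset (Co n LB LF))
    (S : Finset (Fin n)) :
    R2U n ν b cB cF a x K S = ex (g1 _) (Zxm (muU ν n) 1 (SU b cB cF a) x)
      (F2 (muU ν n) (SU b cB cF a) x K (fun (j : Fin n) w => sp w.2 j) S) := by
  have hG := gmU (n := n) b cB cF η hν h0 hA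
  have hw := H347.wt hG 1 x
  have bc : ∀ j l : Fin n, BM fun z => cx (g1 _) K (Zxm (muU ν n) 1 (SU b cB cF a) x)
      (avm (muU ν n) 1 (SU b cB cF a) fun w => sp w.2 j * sp w.2 l) z ^ 2 := fun j l =>
    (hw.bm_cx K (H347.bm hG 1 ((H347.U.bm_spU j).mul (H347.U.bm_spU l)))).sq
  unfold R2U F2
  rw [hw.ex_sum S fun j _ => BM.sum S fun l _ => bc j l]
  exact Finset.sum_congr rfl fun j _ => (hw.ex_sum S fun l _ => bc j l).symm

/-- the mean of the square of `|M|²` -/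
noncomputable def M4U (n : ℕ) (ν : Measure Θ) (b : ℝ) (cB : LB → ℝ) (cF : LF → ℝ)
    (a : LF → Θ → ℝ) (x : ℝ) (K : Finset (Co n LB LF)) (r : Θ → ℝ) (S : Finset (Fin n)) : ℝ :=
  ex (g1 _) (Zxm (muU ν n) 1 (SU b cB cF a) x)
    (fun z => m2 S (fun j => H646.MU n ν b cB cF a x K r j) z ^ 2)

section

variable (hν : IsFiniteMeasure ν) (h0 : ν ≠ 0) (hA : AmU a η) {r : Θ → ℝ} (hr : Measurable r)
  (hrη : ∀ θ, |r θ - 1| ≤ η)
include hν h0 hA hr hrη

lemma bd_r : Bd fun w : Θ × Xs n => r w.1 := by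
  have hη := hA.nn
  refine ⟨hr.comp measurable_fst, 1 + η, by linarith, fun w => ?_⟩
  have h1 := abs_le.1 (hrη w.1)
  rw [abs_le]
  constructor <;> linarith [h1.1, h1.2]

lemma bm_MU (K : Finset (Co n LB LF)) (j : Fin n) : BM (H646.MU n ν b cB cF a x K r j) := by
  have hG := gmU (n := n) b cB cF η hν h0 hA
  have hw := H347.wt hG 1 x
  exact hw.bm_cx K (H347.bm hG 1 ((bd_r hν h0 hA hr hrη).mul (H347.U.bm_spU j)))

lemma bm_m2U (K : Finset (Co n LB LF)) (S : Finset (Fin n)) :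
    BM (m2 S fun j => H646.MU n ν b cB cF a x K r j) :=
  BM.sum S fun j _ => (bm_MU hν h0 hA hr hrη K j).sq

/-- the pair numbers against the means -/
theorem R2U_le17 (hη1 : η ≤ 1 / 10) (K : Finset (Co n LB LF)) (S : Finset (Fin n)) :
    R2U n ν b cB cF a x K S ≤
      17 * M4U n ν b cB cF a x K r S + 3 * rkU n ν b cB cF a x K S := by
  have hG := gmU (n := n) b cB cF η hν h0 hA
  have hw := H347.wt hG 1 x
  have hs : ∀ j : Fin n, Bd fun ω : Θ × Xs n => sp ω.2 j := fun j => bm_spU j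
  have bm2 := (bm_m2U (n := n) (b := b) (cB := cB) (cF := cF) (x := x) hν h0 hA hr hrη K S).sq
  have bR : BM (RKg (muU ν n) (SU b cB cF a) x K (fun (j : Fin n) w => sp w.2 j) S) :=
    bm_RKg hG x K hs S
  have bF : BM (F2 (muU ν n) (SU b cB cF a) x K (fun (j : Fin n) w => sp w.2 j) S) :=
    BM.sum S fun j _ => BM.sum S fun l _ =>
      (hw.bm_cx K (H347.bm hG 1 ((hs j).mul (hs l)))).sq
  rw [R2U_ex hν h0 hA]
  have h1 := hw.ex_mono bF (((BM.const 17).mul bm2).add ((BM.const 3).mul bR)) fun z =>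
    F2_le hG hA.nn hη1 x K (bd_r hν h0 hA hr hrη) hs (fun ω => hrη ω.1) S z
  rw [hw.ex_add ((BM.const 17).mul bm2) ((BM.const 3).mul bR), hw.ex_const_mul,
    hw.ex_const_mul] at h1
  exact h1

/-- the mean square of `Y` against the mean of the square of `|M|²` -/
theorem Y2U_ge (K : Finset (Co n LB LF)) (S : Finset (Fin n)) {τ v : ℝ} (hτ : 0 ≤ τ)
    (hv : 0 ≤ v) :
    τ ^ 2 * M4U n ν b cB cF a x K r S ≤ Y2U n ν b cB cF a x K r S τ v := by
  have hG := gmU (n := n) b cB cF η hν h0 hA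
  have hw := H347.wt hG 1 x
  have bm := bm_m2U (n := n) (b := b) (cB := cB) (cF := cF) (x := x) hν h0 hA hr hrη K S
  unfold M4U Y2U
  rw [← hw.ex_const_mul]
  refine hw.ex_mono ((BM.const _).mul bm.sq) (((BM.const τ).mul bm).add (BM.const v)).sq
    fun z => ?_
  show τ ^ 2 * m2 S (fun j => H646.MU n ν b cB cF a x K r j) z ^ 2 ≤
    (τ * m2 S (fun j => H646.MU n ν b cB cF a x K r j) z + v) ^ 2
  have hm : 0 ≤ m2 S (fun j => H646.MU n ν b cB cF a x K r j) z :=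
    Finset.sum_nonneg fun _ _ => sq_nonneg _
  have h1 : 0 ≤ τ * m2 S (fun j => H646.MU n ν b cB cF a x K r j) z := mul_nonneg hτ hm
  nlinarith

/-- the mean of `|M|²` -/
theorem QsU_sq (K : Finset (Co n LB LF)) (S : Finset (Fin n)) :
    QsU n ν b cB cF a x K r S ^ 2 ≤ M4U n ν b cB cF a x K r S := by
  have hG := gmU (n := n) b cB cF η hν h0 hA
  have hw := H347.wt hG 1 x
  exact Wt.ex_sq_le hw (bm_m2U (n := n) (b := b) (cB := cB) (cF := cF) (x := x)
    hν h0 hA hr hrη K S)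

lemma QsU_nonneg (K : Finset (Co n LB LF)) (S : Finset (Fin n)) :
    0 ≤ QsU n ν b cB cF a x K r S := by
  have hG := gmU (n := n) b cB cF η hν h0 hA
  have hw := H347.wt hG 1 x
  exact hw.ex_nonneg (bm_m2U (n := n) (b := b) (cB := cB) (cF := cF) (x := x)
    hν h0 hA hr hrη K S) fun z => Finset.sum_nonneg fun _ _ => sq_nonneg _

lemma M4U_nonneg (K : Finset (Co n LB LF)) (S : Finset (Fin n)) :
    0 ≤ M4U n ν b cB cF a x K r S :=
  (sq_nonneg _).trans (QsU_sq hν h0 hA hr hrη K S)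

end

end U

end Vale.Agent.P146.H757
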