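import Vale.Agent.P146.H757.NeFin
import Vale.Agent.P146.H463.UpB2

/-!
# P146: the input `NeFinE` of the final version

`neFinE`: `H463.NeFinE` on the window (`a0 ≤ 1/6`); `neFinE_all`: the same for all small `q`, the
hypothesis `hN` of `H205.UpF.up_S2`; `n7F`: `H463.N7F` without hypotheses.
-/

open MeasureTheory ProbabilityTheory Filter Topology

namespace Vale.Agent.P146.H757

/-- **the near end of the final version**, in the letters of `H463.UpB2` -/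
theorem neFinE {a0 b₁ q A b : ℝ} (hq : 0 < q) (hb : 0 < b) (hA : 1 ≤ A) (ha0 : a0 ≤ 1 / 6)
    (hb₁ : 100 * q < b₁) : H463.NeFinE a0 b₁ q A b :=
  ne_fin hq hb hA ha0 hb₁

/-- the near end with all the sites and all the modulated field revealed -/
theorem n7F {a0 b₁ q A b : ℝ} (hq : 0 < q) (hb : 0 < b) (hA : 1 ≤ A) (ha0 : a0 ≤ 1 / 6)
    (hb₁ : 100 * q < b₁) : H463.N7F a0 b₁ q A b :=
  H463.n7F_of hq hb hA ha0 hb₁ (neFinE hq hb hA ha0 hb₁)

/-- **the hypothesis `hN` of `H205.UpF.up_S2`** -/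
theorem neFinE_all {β b₁ : ℝ} (hβ : 0 < β) (hb₁ : 0 < b₁) :
    ∃ q0 : ℝ, 0 < q0 ∧ ∀ q : ℝ, 0 < q → q ≤ q0 → ∀ A : ℝ, 1 ≤ A →
      H463.NeFinE (1 / 6) b₁ q A β :=
  ⟨b₁ / 200, by positivity, fun q hq hqq A hA =>
    neFinE hq hβ hA le_rfl (by linarith)⟩

end Vale.Agent.P146.H757
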