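import Vale.Agent.P146.H757.NeF2

/-!
# P146: the near end in the ensemble `U`, the typical point on the names of Skel

`neL_pt`: for `T` there are shares `t ∈ [1-T/2, 1-T/4]`, `u ∈ [u0, u1]`, `g ∈ [g0, 1]` and a number
`m ∈ [m1, 2 m1]` of hidden sites such that the rank defect (window of the plain field), the response
(window of the modulated field) and the increment at the next site are small at `(t, u, g, Sn n m)`.
-/

open MeasureTheory ProbabilityTheory

namespace Vale.Agent.P146.H757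

open Vale.Agent.P157.Lv hiding Dep
open Vale.Agent.P146.H425 Vale.Agent.P146.H332 Vale.Agent.P146.H646 Vale.Agent.P146.H196
  Vale.Agent.P146.H347 Vale.Agent.P146.H325 Vale.Agent.P146.H816 Vale.Agent.P146.H475
  Vale.Agent.P146.H281.U Vale.Agent.P146.H615 Vale.Agent.P146.H463 Vale.Agent.P146.H418
  Vale.Agent.P146.H585.U Vale.Agent.P146.H412.G Vale.Agent.P146.H698 Vale.Agent.P146.H698.Br
  Vale.Agent.P146.H347.U
open Vale.Agent.P146.H9.U (cbU cfU FLU canU)
open Vale.Agent.P146.H412 (prs)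

set_option linter.unusedSectionVars false

/-- the revealed block -/
noncomputable abbrev KL (L : Law) (S : Finset (Fin L.n)) : Finset (Co L.n Bool (Bool × Bool)) :=
  Kset S {true} (FLU Bool)

/-- the rank defect -/
noncomputable abbrev rkL (L : Law) (S : Finset (Fin L.n)) (t u g : ℝ) : ℝ :=
  rkU L.n L.nuL L.b (cbU t) (L.cfg u g) L.aG L.x (KL L S) S

/-- the response to the modulated field -/
noncomputable abbrev x2L (L : Law) (S : Finset (Fin L.n)) (t u g : ℝ) : ℝ :=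
  X2U L.n L.nuL L.b (cbU t) (L.cfg u g) L.aG L.x (KL L S) (fun θ => al L.η (θ ())) S

/-- the increment at the site `i0` -/
noncomputable abbrev icL (L : Law) (S : Finset (Fin L.n)) (i0 : Fin L.n) (t u g : ℝ) : ℝ :=
  icU L.n L.nuL L.b (cbU t) (L.cfg u g) L.aG L.x (KL L S) (KL L (insert i0 S))
    (fun θ => al L.η (θ ())) S

/-- the mean of the square of `|M|²` -/
noncomputable abbrev m4L (L : Law) (S : Finset (Fin L.n)) (t u g : ℝ) : ℝ :=
  M4U L.n L.nuL L.b (cbU t) (L.cfg u g) L.aG L.x (KL L S) (fun θ => al L.η (θ ())) S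

/-- the pair numbers -/
noncomputable abbrev r2L (L : Law) (S : Finset (Fin L.n)) (t u g : ℝ) : ℝ :=
  R2U L.n L.nuL L.b (cbU t) (L.cfg u g) L.aG L.x (KL L S) S

variable {L : Law}

lemma QsU_fag (S : Finset (Fin L.n)) (t u g : ℝ) :
    QsU L.n L.nuL L.b (cbU t) (L.cfg u g) L.aG L.x (KL L S) (fun θ => al L.η (θ ())) S =
      L.fag S t u g := rfl

lemma ff_false (S : Finset (Fin L.n)) (t u g : ℝ) :
    H320.ffU L.n L.nuL L.b (VFb L.vp L.s) (fun k (θ : Unit → ℝ) => αb L.η k (θ ())) L.x false S t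
      (ub u g) = L.ffg S t u g := rfl

lemma ff_true (S : Finset (Fin L.n)) (t u g : ℝ) :
    H320.ffU L.n L.nuL L.b (VFb L.vp L.s) (fun k (θ : Unit → ℝ) => αb L.η k (θ ())) L.x true S t
      (ub u g) = L.fag S t u g := rfl

lemma rk_false (S : Finset (Fin L.n)) (t u g : ℝ) :
    H320.rkT L.n L.nuL L.b (fun k (θ : Unit → ℝ) => αb L.η k (θ ())) L.x (cbU t) (L.cfg u g) L.aG
      false S (KL L S) = rkL L S t u g := by
  have e : ∀ i : Fin L.n, (fun w : (Unit → ℝ) × Xs L.n => αb L.η false (w.1 ()) * H325.sp w.2 i) =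
      fun w => H325.sp w.2 i := fun i => by
    funext w
    show 1 * H325.sp w.2 i = H325.sp w.2 i
    rw [one_mul]
  have e2 : ∀ i j : Fin L.n, (fun w : (Unit → ℝ) × Xs L.n => αb L.η false (w.1 ()) * H325.sp w.2 i *
      (αb L.η false (w.1 ()) * H325.sp w.2 j)) = fun w => H325.sp w.2 i * H325.sp w.2 j := fun i j => by
    funext w
    show 1 * H325.sp w.2 i * (1 * H325.sp w.2 j) = H325.sp w.2 i * H325.sp w.2 j
    rw [one_mul, one_mul]
  simp only [H320.rkT, H320.cxT, e, e2]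
  rfl

lemma rx_true (S : Finset (Fin L.n)) (hl : 0 < L.lam) (hη : 0 ≤ L.η) (t u g : ℝ) :
    H320.rxT L.n L.nuL L.b (fun k (θ : Unit → ℝ) => αb L.η k (θ ())) L.x (cbU t) (L.cfg u g) L.aG
      true S (KL L S) = x2L L S t u g :=
  H320.rxT_Xr (nuL_fin L hl hη) (nuL_ne L hl hη) (amU_L L hη id) (amU_aG L hη) true S (KL L S)

lemma ub_eta (u : Bool → ℝ) : u = ub (u false) (u true) := by
  funext k
  cases k <;> rfl

/-- **The typical point of the near end in the ensemble `U`.** -/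
theorem neL_pt (hl : 0 < L.lam) (hη : 0 ≤ L.η) (hv : 0 < L.vp) (hs : 0 < L.s) (hx : 0 < L.x)
    (hx1 : L.x ≤ 1) (hn : 0 < L.n) (hb : 0 < L.b) {T u0 u1 g0 U : ℝ} (hT0 : 0 < T) (hT1 : T ≤ 1)
    (hu0 : 0 ≤ u0) (hu : u0 < u1) (hu1 : u1 ≤ 1) (hg0 : 0 ≤ g0) (hg1 : g0 < 1) {m1 : ℕ}
    (h1 : 1 ≤ m1) (hff : ∀ S, L.ffg S (1 - T / 4) u1 1 ≤ L.n * U)
    (hfa : ∀ S, L.fag S (1 - T / 4) u1 1 ≤ L.n * (4 * U)) :
    ∃ t ∈ Set.Icc (1 - T / 2) (1 - T / 4), ∃ u ∈ Set.Icc u0 u1, ∃ g ∈ Set.Icc g0 1,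
      ∃ m ∈ Finset.Icc m1 (2 * m1),
      L.rrg (Sn L.n (2 * m1)) (1 - T / 2) u0 g0 ≤ L.rrg (Sn L.n m) t u g ∧
      rkL L (Sn L.n m) t u g ≤ 13 * (L.n * U) / (L.x ^ 2 * (L.vp * (u1 - u0))) ∧
      x2L L (Sn L.n m) t u g ≤ 13 * (L.n * (4 * U)) / (L.s ^ 2 * (1 - g0)) ∧
      (∀ i0 : Fin L.n, i0.1 + m = L.n →
        icL L (Sn L.n m) i0 t u g ≤ 13 * (L.n * (4 * U)) / m1) := by
  have hVF : ∀ k, 0 < VFb L.vp L.s k := fun k => by
    cases k
    · exact hv
    · exact pow_pos hs 2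
  have hA := amU_L L hη (id : Bool → Bool)
  have ht0 : 0 ≤ 1 - T / 2 := by linarith
  have ht : 1 - T / 2 ≤ 1 - T / 4 := by linarith
  obtain ⟨t, hti, w, hw, m, hm, hT⟩ := H320.typU1 (n := L.n) (b := L.b)
    (α := fun k (θ : Unit → ℝ) => αb L.η k (θ ())) (VF := VFb L.vp L.s) (x := L.x)
    (nuL_fin L hl hη) (nuL_ne L hl hη) hA hn hb hVF hx.le hx1 h1 (show m1 ≤ 2 * m1 by omega)
    ht0 ht (show 1 - T / 4 ≤ 1 by linarith) (u0 := ub u0 g0) (u1 := ub u1 1)
    (ub_nonneg hu0 hg0) (ub_mono hu.le hg1.le) (ub_le_one hu1 le_rfl)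
  have hwf : u0 ≤ w false ∧ w false ≤ u1 := hw false
  have hwt : g0 ≤ w true ∧ w true ≤ 1 := hw true
  have hm' := Finset.mem_Icc.1 hm
  have t0' : 0 ≤ t := ht0.trans hti.1
  have t1' : t ≤ 1 := hti.2.trans (by linarith)
  have wf0 : 0 ≤ w false := hu0.trans hwf.1
  have wt0 : 0 ≤ w true := hg0.trans hwt.1
  have wf1 : w false ≤ 1 := hwf.2.trans hu1
  have hty := hT Bool (Bool × Bool) Prod.fst (cbU t) (L.cfg (w false) (w true)) {true} (FLU Bool)
    (by
      rw [ub_eta w]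
      exact can_sh L hv.le t0' t1' wf0 wf1 wt0 hwt.2)
  have hm1 : (0 : ℝ) < m1 := by exact_mod_cast h1
  have hn0 : (0 : ℝ) < L.n := by exact_mod_cast hn
  have hcard : (5 * (Fintype.card Bool : ℝ) + 3) = 13 := by
    rw [Fintype.card_bool]
    norm_num
  have hM : ((2 * m1 : ℕ) : ℝ) - m1 + 1 = m1 + 1 := by push_cast; ring
  rw [hcard, hM] at hty
  refine ⟨t, hti, w false, hwf, w true, hwt, m, hm, ?_, ?_, ?_, fun i0 hi0 => ?_⟩
  · refine rrg_mono L hl hη hv.le ?_ ht0 hti.1 t1' hu0 hwf.1 wf1 hg0 hwt.1 hwt.2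
    intro i hi
    simp only [Sn, Finset.mem_filter, Finset.mem_univ, true_and] at hi ⊢
    omega
  · have h2 := hty.rk false (Sn L.n m) (Or.inl rfl)
    have e2 : H320.rkT L.n L.nuL L.b (fun k (θ : Unit → ℝ) => αb L.η k (θ ())) L.x (cbU t)
        (L.cfg (w false) (w true)) (fun l : Bool × Bool => fun θ : Unit → ℝ => αb L.η l.1 (θ ()))
        false (Sn L.n m) (Kset (Sn L.n m) {true} (FLU Bool)) =
        rkL L (Sn L.n m) t (w false) (w true) := rk_false (Sn L.n m) t (w false) (w true)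
    rw [e2] at h2
    have e3 : VFb L.vp L.s false = L.vp := rfl
    have e4 : ub u1 1 false - ub u0 g0 false = u1 - u0 := rfl
    rw [e3, e4] at h2
    have h3 : L.x ^ 2 * (L.vp * (u1 - u0)) * rkL L (Sn L.n m) t (w false) (w true) ≤
        13 * (L.n * U) := by
      have h4 : L.x ^ 2 * L.vp * (u1 - u0) * rkL L (Sn L.n m) t (w false) (w true) ≤
          13 * L.ffg (H320.SN L.n (m1 - 1)) (1 - T / 4) u1 1 := h2
      have h5 := hff (H320.SN L.n (m1 - 1))
      have h6 : L.x ^ 2 * (L.vp * (u1 - u0)) = L.x ^ 2 * L.vp * (u1 - u0) := by ring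
      rw [h6]
      linarith
    have h7 : 0 < L.x ^ 2 * (L.vp * (u1 - u0)) := by
      have : 0 < u1 - u0 := by linarith
      positivity
    rw [le_div_iff₀ h7, mul_comm]
    exact h3
  · have h2 := hty.rx true (Sn L.n m) (Or.inl rfl)
    have e2 : H320.rxT L.n L.nuL L.b (fun k (θ : Unit → ℝ) => αb L.η k (θ ())) L.x (cbU t)
        (L.cfg (w false) (w true)) (fun l : Bool × Bool => fun θ : Unit → ℝ => αb L.η l.1 (θ ()))
        true (Sn L.n m) (Kset (Sn L.n m) {true} (FLU Bool)) =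
        x2L L (Sn L.n m) t (w false) (w true) := rx_true (Sn L.n m) hl hη t (w false) (w true)
    rw [e2] at h2
    have e3 : VFb L.vp L.s true = L.s ^ 2 := rfl
    have e4 : ub u1 1 true - ub u0 g0 true = 1 - g0 := rfl
    rw [e3, e4] at h2
    have h3 : L.s ^ 2 * (1 - g0) * x2L L (Sn L.n m) t (w false) (w true) ≤
        13 * (L.n * (4 * U)) := by
      have h4 : L.s ^ 2 * (1 - g0) * x2L L (Sn L.n m) t (w false) (w true) ≤
          13 * L.fag (H320.SN L.n (m1 - 1)) (1 - T / 4) u1 1 := h2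
      have h5 := hfa (H320.SN L.n (m1 - 1))
      linarith
    have h7 : 0 < L.s ^ 2 * (1 - g0) := by
      have : 0 < 1 - g0 := by linarith
      positivity
    rw [le_div_iff₀ h7, mul_comm]
    exact h3
  · have h2 : icL L (Sn L.n m) i0 t (w false) (w true) ≤
        13 * L.fag (H320.SN L.n (m1 - 1)) (1 - T / 4) u1 1 / (m1 + 1) := hty.inc true i0 hi0
    refine h2.trans ?_
    have h5 := hfa (H320.SN L.n (m1 - 1))
    have h6 : 0 ≤ L.fag (H320.SN L.n (m1 - 1)) (1 - T / 4) u1 1 :=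
      fag_nonneg L hl hη _ _ _ _
    calc 13 * L.fag (H320.SN L.n (m1 - 1)) (1 - T / 4) u1 1 / (m1 + 1) ≤
        13 * (L.n * (4 * U)) / (m1 + 1) := by gcongr
      _ ≤ 13 * (L.n * (4 * U)) / m1 := by
          apply div_le_div_of_nonneg_left _ hm1 (by linarith)
          linarith

end Vale.Agent.P146.H757
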