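import Vale.Agent.P146.H757.NeStep

/-!
# P146: the near end in the ensemble `U`, a priori sizes on the names of Skel

`gnU_law`: the gain of the ensemble `U` is the gain of the law; `r2L_le`, `q4L_le`: the pair numbers
and the four point number from the gain; `stL_eq`: the probability that the amplitude is stuck.
-/

open MeasureTheory ProbabilityTheory

namespace Vale.Agent.P146.H757

open Vale.Agent.P157.Lv hiding Dep
open Vale.Agent.P146.H425 Vale.Agent.P146.H332 Vale.Agent.P146.H646 Vale.Agent.P146.H196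
  Vale.Agent.P146.H246 Vale.Agent.P146.H347 Vale.Agent.P146.H325 Vale.Agent.P146.H816
  Vale.Agent.P146.H475
  Vale.Agent.P146.H281.U Vale.Agent.P146.H615 Vale.Agent.P146.H463 Vale.Agent.P146.H418
  Vale.Agent.P146.H585.U Vale.Agent.P146.H412.G Vale.Agent.P146.H698 Vale.Agent.P146.H698.Br
  Vale.Agent.P146.H347.U
open Vale.Agent.P146.H9.U (cbU cfU FLU canU cbU_sq sum_fst)
open Vale.Agent.P146.H412 (prs gn gain gain_lm Cp)

set_option linter.unusedSectionVars false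

variable {L : Law}

/-- the amplitudes of the classes -/
noncomputable abbrev aL (L : Law) (k : Bool) (θ : Unit → ℝ) : ℝ := αb L.η k (θ ())

lemma vf_pos (hv : 0 < L.vp) (hs : 0 < L.s) (k : Bool) : 0 < VFb L.vp L.s k := by
  cases k
  · exact hv
  · exact pow_pos hs 2

/-- **The gain of the ensemble `U` is the gain of the law.** -/
theorem gnU_law (hl : 0 < L.lam) (hη : 0 ≤ L.η) (hv : 0 < L.vp) (hs : 0 < L.s) (hx : 0 < L.x) :
    H463.U.gnU L.nuL L.n L.b (VFb L.vp L.s) (aL L) L.x = gn L 0 0 := by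
  have h1 := H412.U.gain_U (n := L.n) (b := L.b) (vp := L.vp) (s := L.s) (η := L.η)
    (lam := L.lam) (c := L.c) (x := L.x) (cB := H418.cb 0) (cF := H418.cf L.vp 0)
    (cB' := fun _ : Unit => (1 : ℝ)) (cF' := fun k : Bool => √(VFb L.vp L.s k)) (κ := id)
    hl hη hv hs (H418.sum_cb le_rfl zero_le_one) (H418.sum_cf hv.le le_rfl zero_le_one)
    (by simp) (fun k => by
      rw [Finset.sum_filter]
      simp only [id]
      rw [Finset.sum_ite_eq' Finset.univ k]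
      simp only [Finset.mem_univ, if_true]
      exact Real.sq_sqrt (vf_pos hv hs k).le) hx
  unfold H463.U.gnU
  refine Eq.trans ?_ h1
  rw [gain_lm _ _ _ hx, gain_lm _ _ _ hx]
  have e1 : lzm (muU L.nuL L.n) 1 (SUb L.n L.b (VFb L.vp L.s) (aL L)) =
      lzm (muA (Xs L.n) L.lam L.η L.c) 1 (SU L.b (fun _ : Unit => (1 : ℝ))
        (fun k : Bool => √(VFb L.vp L.s k)) fun l => αb L.η (id l)) := by
    rw [tr_lzm (mp_unit hl hη L.c) (emb_unit L.n)]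
    congr 1
    funext e w
    rcases e with (⟨q, l⟩ | ⟨i, l⟩) | j <;> rfl
  rw [e1]

/-- the shares in the letters of `H698` -/
lemma can_sh' (hv : 0 ≤ L.vp) {t u g : ℝ} (ht0 : 0 ≤ t) (ht1 : t ≤ 1) (hu0 : 0 ≤ u)
    (hu1 : u ≤ 1) (hg0 : 0 ≤ g) (hg1 : g ≤ 1) :
    H698.ShU (Prod.fst : Bool × Bool → Bool) (cbU t) (L.cfg u g) {true} (FLU Bool)
      (VFb L.vp L.s) t (ub u g) := by
  have h := can_sh L hv ht0 ht1 hu0 hu1 hg0 hg1
  exact ⟨h.totB, h.totF, h.shB, h.shF⟩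

section sz

variable (hl : 0 < L.lam) (hη : 0 ≤ L.η) (hv : 0 < L.vp) (hs : 0 < L.s) (hx : 0 < L.x)
  (hn : 0 < L.n) (hb : L.b ≠ 0) (hxb : L.x ^ 2 * L.b ^ 2 ≤ 4) {t u g G : ℝ} (ht0 : 0 ≤ t)
  (ht1 : t < 1) (hu0 : 0 ≤ u) (hu1 : u ≤ 1) (hg0 : 0 ≤ g) (hg1 : g ≤ 1) (hG : gn L 0 0 ≤ G)
  (hG1 : 1 ≤ G)
include hl hη hv hs hx hn hb hxb ht0 ht1 hu0 hu1 hg0 hg1 hG hG1

/-- **The pair numbers.** -/
theorem r2L_le (S : Finset (Fin L.n)) :
    r2L L S t u g ≤ (L.n : ℝ) ^ 2 * (12 * G / (L.x ^ 2 * L.b ^ 2 * (1 - t) * L.n)) := by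
  have hn0 : (0 : ℝ) < L.n := by exact_mod_cast hn
  have h1 := H463.U.mom_CCU (n := L.n) (b := L.b) (α := aL L) (nuL_fin L hl hη)
    (nuL_ne L hl hη) (amU_L L hη id) hx hn hb hxb (vf_pos hv hs)
    (can_sh' hv.le ht0 ht1.le hu0 hu1 hg0 hg1) ht1 S (g := G)
    (by rw [gnU_law hl hη hv hs hx]; exact hG) hG1 1
  simp only [pow_one] at h1
  have h2 : Cp 1 * (4 * G / (L.x ^ 2 * L.b ^ 2 * (1 - t) * L.n)) =
      12 * G / (L.x ^ 2 * L.b ^ 2 * (1 - t) * L.n) := by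
    have : Cp 1 = 3 := by norm_num [Cp]
    rw [this]
    ring
  rw [h2] at h1
  have hGM := gmU (n := L.n) L.b (cbU t) (L.cfg u g) L.η (nuL_fin L hl hη) (nuL_ne L hl hη)
    (amU_aG L hη)
  have hw := H347.wt hGM 1 L.x
  have hss : ∀ j : Fin L.n, Bd fun ω : (Unit → ℝ) × Xs L.n => H325.sp ω.2 j := fun j =>
    bm_spU j
  have bF : BM (F2 (muU L.nuL L.n) (SU L.b (cbU t) (L.cfg u g) L.aG) L.x (KL L S)
      (fun (j : Fin L.n) w => H325.sp w.2 j) S) :=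
    BM.sum S fun j _ => BM.sum S fun l _ =>
      (hw.bm_cx (KL L S) (H347.bm hGM 1 ((hss j).mul (hss l)))).sq
  have e1 : r2L L S t u g = (L.n : ℝ) ^ 2 * ex (g1 _)
      (Zxm (muU L.nuL L.n) 1 (SU L.b (cbU t) (L.cfg u g) L.aG) L.x)
      (CCg (muU L.nuL L.n) (SU L.b (cbU t) (L.cfg u g) L.aG) L.x Prod.snd (KL L S) S) := by
    rw [← hw.ex_const_mul]
    refine (R2U_ex (nuL_fin L hl hη) (nuL_ne L hl hη) (amU_aG L hη) (KL L S) S).trans ?_
    congr 1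
    funext z
    show F2 (muU L.nuL L.n) (SU L.b (cbU t) (L.cfg u g) L.aG) L.x (KL L S)
      (fun (j : Fin L.n) w => H325.sp w.2 j) S z = (L.n : ℝ) ^ 2 *
      (F2 (muU L.nuL L.n) (SU L.b (cbU t) (L.cfg u g) L.aG) L.x (KL L S)
      (fun (j : Fin L.n) w => H325.sp w.2 j) S z / (L.n : ℝ) ^ 2)
    field_simp
  rw [e1]
  exact mul_le_mul_of_nonneg_left h1 (by positivity)

/-- **The four point number.** -/
theorem q4L_le (hx1 : L.x ≤ 1) (S : Finset (Fin L.n)) :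
    q4L L S t u g ≤ (L.n : ℝ) ^ 4 * (43 * G / (L.x ^ 2 * L.b ^ 2 * (1 - t) * L.n)) ^ 2 :=
  H463.U.q4_canU (n := L.n) (b := L.b) (α := aL L) (nuL_fin L hl hη)
    (nuL_ne L hl hη) (amU_L L hη id) hx hx1 hn hb hxb (vf_pos hv hs)
    (can_sh' hv.le ht0 ht1.le hu0 hu1 hg0 hg1) ht1 S (g := G)
    (by rw [gnU_law hl hη hv hs hx]; exact hG) hG1

end sz

/-- the second moment of the overlap against the pair numbers -/
theorem rrg_le_r2 (hl : 0 < L.lam) (hη : 0 ≤ L.η) (hn : 0 < L.n) (S : Finset (Fin L.n))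
    (t u g : ℝ) : (L.n : ℝ) ^ 2 * L.rrg S t u g ≤ r2L L S t u g := by
  have hn0 : (0 : ℝ) < L.n := by exact_mod_cast hn
  have hGM := gmU (n := L.n) L.b (cbU t) (L.cfg u g) L.η (nuL_fin L hl hη) (nuL_ne L hl hη)
    (amU_aG L hη)
  have hw := H347.wt hGM 1 L.x
  have hss : ∀ j : Fin L.n, Bd fun ω : (Unit → ℝ) × Xs L.n => H325.sp ω.2 j := fun j =>
    bm_spU j
  have bF : BM (F2 (muU L.nuL L.n) (SU L.b (cbU t) (L.cfg u g) L.aG) L.x (KL L S)
      (fun (j : Fin L.n) w => H325.sp w.2 j) S) :=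
    BM.sum S fun j _ => BM.sum S fun l _ =>
      (hw.bm_cx (KL L S) (H347.bm hGM 1 ((hss j).mul (hss l)))).sq
  have bP : BM (fun z => ∑ p ∈ prs S, cG (muU L.nuL L.n) (SU L.b (cbU t) (L.cfg u g) L.aG) L.x
      (KL L S) (fun w => SkS p w.2) z ^ 2) :=
    BM.sum _ fun p _ => (hw.bm_cx _ (H347.bm hGM 1 (bm_SkSU p))).sq
  have e1 : (L.n : ℝ) ^ 2 * L.rrg S t u g = 2 * L.ppg S t u g := by
    unfold Law.rrg
    field_simp
  have e2 : r2L L S t u g = _ :=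
    R2U_ex (nuL_fin L hl hη) (nuL_ne L hl hη) (amU_aG L hη) (KL L S) S
  rw [e1, e2]
  have e3 : L.ppg S t u g = ex (g1 _)
      (Zxm (muU L.nuL L.n) 1 (SU L.b (cbU t) (L.cfg u g) L.aG) L.x)
      (fun z => ∑ p ∈ prs S, cG (muU L.nuL L.n) (SU L.b (cbU t) (L.cfg u g) L.aG) L.x
      (KL L S) (fun w => SkS p w.2) z ^ 2) := rfl
  rw [e3, ← hw.ex_const_mul]
  refine hw.ex_mono ((BM.const 2).mul bP) bF fun z => ?_
  have h4 := F2_prs (cf := Prod.snd) (x := L.x) hGM (KL L S) S z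
  have h5 : F2 (muU L.nuL L.n) (SU L.b (cbU t) (L.cfg u g) L.aG) L.x (KL L S)
      (fun (j : Fin L.n) w => H325.sp w.2 j) S z = _ := h4
  have : (0 : ℝ) ≤ S.card := Nat.cast_nonneg _
  refine le_trans ?_ (le_of_eq h5.symm)
  linarith

/-- **The second moment of the overlap against the mean square of `Y`.** -/
theorem rrg_le_y2 (hl : 0 < L.lam) (hη : 0 ≤ L.η) (hη1 : L.η ≤ 1 / 10) (hv : 0 ≤ L.vp)
    (hn : 0 < L.n) (S : Finset (Fin L.n)) {t u g : ℝ} (ht0 : 0 ≤ t) (hu0 : 0 ≤ u) {rk : ℝ}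
    (hrk : rkL L S t u g ≤ (L.n : ℝ) ^ 2 * rk) :
    (L.b ^ 2 * t) ^ 2 * (L.rrg S t u g - 3 * rk) ≤ 17 * y2L L S t u g := by
  have hn0 : (0 : ℝ) < L.n := by exact_mod_cast hn
  have hA := amU_aG L hη
  have hr : Measurable fun θ : Unit → ℝ => al L.η (θ ()) :=
    (measurable_al L.η).comp (measurable_pi_apply ())
  have hrη : ∀ θ : Unit → ℝ, |al L.η (θ ()) - 1| ≤ L.η := fun θ => abs_al_sub hη (θ ())
  have h1 := rrg_le_r2 hl hη hn S t u g
  have h2 := R2U_le17 (n := L.n) (b := L.b) (cB := cbU t) (cF := L.cfg u g) (x := L.x)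
    (nuL_fin L hl hη) (nuL_ne L hl hη) hA hr hrη hη1 (KL L S) S
  have h3 := Y2U_ge (n := L.n) (b := L.b) (cB := cbU t) (cF := L.cfg u g) (x := L.x)
    (nuL_fin L hl hη) (nuL_ne L hl hη) hA hr hrη (KL L S) S (τ := L.b ^ 2 / L.n * t)
    (v := u * L.vp) (by positivity) (by positivity)
  have h4 : (L.n : ℝ) ^ 2 * L.rrg S t u g ≤ 17 * m4L L S t u g + 3 * ((L.n : ℝ) ^ 2 * rk) := by
    refine h1.trans (h2.trans ?_)
    linarith
  have h5 : (L.b ^ 2 / L.n * t) ^ 2 * ((L.n : ℝ) ^ 2 * (L.rrg S t u g - 3 * rk)) ≤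
      (L.b ^ 2 / L.n * t) ^ 2 * (17 * m4L L S t u g) := by
    refine mul_le_mul_of_nonneg_left ?_ (sq_nonneg _)
    linarith
  have e1 : (L.b ^ 2 / L.n * t) ^ 2 * ((L.n : ℝ) ^ 2 * (L.rrg S t u g - 3 * rk)) =
      (L.b ^ 2 * t) ^ 2 * (L.rrg S t u g - 3 * rk) := by
    field_simp
  rw [e1] at h5
  have h6 : (L.b ^ 2 / L.n * t) ^ 2 * m4L L S t u g ≤ y2L L S t u g := h3
  linarith

/-- **The probability that the amplitude is stuck**, in any single amplitude system. -/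
theorem stL_eq (hl : 0 < L.lam) (hη : 0 ≤ L.η) (hv : 0 < L.vp) (hs : 0 < L.s) {t u g : ℝ}
    (ht0 : 0 ≤ t) (ht1 : t ≤ 1) (hu0 : 0 ≤ u) (hu1 : u ≤ 1) (hg0 : 0 ≤ g) (hg1 : g ≤ 1) :
    stL L t u g = ex (fun _ => gaussianReal 0 1)
      (Zxm (muA (Xs L.n) L.lam L.η L.c) 1 (Sm L.b (H418.cb 0) (H418.cf L.vp 0) L.s L.η) L.x)
      (avm (muA (Xs L.n) L.lam L.η L.c) 1 (Sm L.b (H418.cb 0) (H418.cf L.vp 0) L.s L.η)
        fun p => 1 - ins L.η p.1) := by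
  have hsh := can_sh L hv.le ht0 ht1 hu0 hu1 hg0 hg1
  have hsh0 : H9.U.ShU (Prod.fst : Bool × Bool → Bool) (cbU t) (L.cfg u g) (∅ : Finset Bool)
      (∅ : Finset (Bool × Bool)) (VFb L.vp L.s) 0 (ub 0 (gr false)) :=
    ⟨hsh.totB, hsh.totF, by simp, fun k => by
      cases k <;> simp [ub, gr]⟩
  have hA := amU_aG L hη
  have bst : Bm fun w : ℝ × Xs L.n => 1 - ins L.η w.1 := by
    have := H347.dmx L.n
    refine (Bm.const 1).sub ⟨(measurable_ins L.η).comp measurable_fst, 1, zero_le_one,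
      fun w => ?_⟩
    rw [abs_of_nonneg (ins_nonneg L.η w.1)]
    exact ins_le L.η w.1
  have key := bridge_unit (n := L.n) (b := L.b) (vp := L.vp) (s := L.s) (η := L.η)
    (lam := L.lam) (c := L.c) (cB := H418.cb 0) (cF := H418.cf L.vp 0) (BL := (∅ : Finset Bool))
    (FL := (∅ : Finset Bool)) (t := 0) (u := 0) (J := Unit)
    (f := fun _ w => 1 - ins L.η w.1) hl hη hv hs (H418.sum_cb le_rfl zero_le_one)
    (H418.sum_cf hv.le le_rfl zero_le_one) (by simp) (by simp) false hsh0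
    (∅ : Finset (Fin L.n)) L.x (fun _ => bst) (Φ := fun v => v ()) (measurable_pi_apply ())
    (fun C => ⟨C, fun v hv => hv ()⟩)
  obtain ⟨M0, hM⟩ := H412.gm_sk (n := L.n) hl hη L.c L.b (H418.cb 0) (H418.cf L.vp 0) L.s
  have hGM := gmU (n := L.n) L.b (cbU t) (L.cfg u g) L.η (nuL_fin L hl hη) (nuL_ne L hl hη) hA
  have bst' : Bm fun w : (Unit → ℝ) × Xs L.n => 1 - ins L.η (w.1 ()) :=
    (Bm.const 1).sub (bm_insU L.η ())
  have e1 := ex_cx' (H347.wt hM 1 L.x) (K := Br.Kgs (∅ : Finset (Fin L.n)) (∅ : Finset Bool)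
    (∅ : Finset Bool) false) (H347.bm hM 1 bst)
  have e2 := ex_cx' (H347.wt hGM 1 L.x) (K := Kset (∅ : Finset (Fin L.n)) (∅ : Finset Bool)
    (∅ : Finset (Bool × Bool))) (H347.bm hGM 1 bst')
  exact (e2.symm.trans key.symm).trans e1

end Vale.Agent.P146.H757
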