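import Vale.Agent.P146.H757.NeAbs
import Vale.Agent.P146.H757.NePtU

/-!
# P146: the near end in the ensemble `U`, the step on the names of Skel

`neL_lt`: under the conditions `NeNum` on the numbers at the size `h` the mean square of `Y` at
`(t, u, g, Sn n m)` is smaller than `h`; `rrg_lt`: so is the second moment of the overlap.
-/

open MeasureTheory ProbabilityTheory

namespace Vale.Agent.P146.H757

open Vale.Agent.P157.Lv hiding Dep
open Vale.Agent.P146.H425 Vale.Agent.P146.H332 Vale.Agent.P146.H646 Vale.Agent.P146.H196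
  Vale.Agent.P146.H347 Vale.Agent.P146.H325 Vale.Agent.P146.H816 Vale.Agent.P146.H475
  Vale.Agent.P146.H281.U Vale.Agent.P146.H615 Vale.Agent.P146.H463 Vale.Agent.P146.H418
  Vale.Agent.P146.H585.U Vale.Agent.P146.H412.G Vale.Agent.P146.H698 Vale.Agent.P146.H698.Br
  Vale.Agent.P146.H347.U
open Vale.Agent.P146.H9.U (cbU cfU FLU canU cbU_sq sum_fst)
open Vale.Agent.P146.H412 (prs)

set_option linter.unusedSectionVars false

/-- the mean square of `Y` -/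
noncomputable abbrev y2L (L : Law) (S : Finset (Fin L.n)) (t u g : ℝ) : ℝ :=
  Y2U L.n L.nuL L.b (cbU t) (L.cfg u g) L.aG L.x (KL L S) (fun θ => al L.η (θ ())) S
    (L.b ^ 2 / L.n * t) (u * L.vp)

/-- the four point number -/
noncomputable abbrev q4L (L : Law) (S : Finset (Fin L.n)) (t u g : ℝ) : ℝ :=
  q4U L.n L.nuL L.b (cbU t) (L.cfg u g) L.aG L.x (KL L S) S

/-- the probability that the amplitude is stuck -/
noncomputable abbrev stL (L : Law) (t u g : ℝ) : ℝ :=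
  stk L.n L.nuL L.b (cbU t) (L.cfg u g) L.aG L.η L.x ()

/-- the bad event of the fourth cumulant -/
noncomputable def pbN (b2 n m w η s vp : ℝ) : ℝ :=
  32 / H355.cK b2 * (1 / √m + (1 / (√w * √n) + 2 * η * s / √vp))

variable {L : Law}

section cf

variable {u g : ℝ}

lemma cfg_ff (hv : 0 ≤ L.vp) (hu0 : 0 ≤ u) (hu1 : u ≤ 1) :
    L.cfg u g (false, false) ^ 2 = L.vp * (1 - u) := by
  show (√L.vp * cbU u false) ^ 2 = _
  rw [mul_pow, Real.sq_sqrt hv, (cbU_sq hu0 hu1).2]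

lemma cfg_ft (hv : 0 ≤ L.vp) (hu0 : 0 ≤ u) (hu1 : u ≤ 1) :
    L.cfg u g (false, true) ^ 2 = L.vp * u := by
  show (√L.vp * cbU u true) ^ 2 = _
  rw [mul_pow, Real.sq_sqrt hv, (cbU_sq hu0 hu1).1]

lemma cfg_tf (hg0 : 0 ≤ g) (hg1 : g ≤ 1) :
    L.cfg u g (true, false) ^ 2 = L.s ^ 2 * (1 - g) := by
  show (√(L.s ^ 2) * cbU g false) ^ 2 = _
  rw [mul_pow, Real.sq_sqrt (sq_nonneg _), (cbU_sq hg0 hg1).2]

lemma cfg_tt (hg0 : 0 ≤ g) (hg1 : g ≤ 1) :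
    L.cfg u g (true, true) ^ 2 = L.s ^ 2 * g := by
  show (√(L.s ^ 2) * cbU g true) ^ 2 = _
  rw [mul_pow, Real.sq_sqrt (sq_nonneg _), (cbU_sq hg0 hg1).1]

lemma sum_P (hv : 0 ≤ L.vp) (hu0 : 0 ≤ u) (hu1 : u ≤ 1) :
    ∑ l with l.1 = false, L.cfg u g l ^ 2 = L.vp := by
  rw [sum_fst false fun l => L.cfg u g l ^ 2, cfg_ft hv hu0 hu1, cfg_ff hv hu0 hu1]
  ring

lemma sum_M (hg0 : 0 ≤ g) (hg1 : g ≤ 1) :
    ∑ l with l.1 = true, L.cfg u g l ^ 2 = L.s ^ 2 := by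
  rw [sum_fst true fun l => L.cfg u g l ^ 2, cfg_tt hg0 hg1, cfg_tf hg0 hg1]
  ring

lemma compl_P : (Finset.univ.filter fun l : Bool × Bool => l.1 = false)ᶜ =
    Finset.univ.filter fun l => l.1 = true := by decide

lemma inter_P : FLU Bool ∩ (Finset.univ.filter fun l : Bool × Bool => l.1 = false) =
    {(false, true)} := by decide

lemma sum_all (hv : 0 ≤ L.vp) (hu0 : 0 ≤ u) (hu1 : u ≤ 1) (hg0 : 0 ≤ g) (hg1 : g ≤ 1) :
    ∑ l, L.cfg u g l ^ 2 = L.vp + L.s ^ 2 := by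
  rw [← Finset.sum_add_sum_compl (Finset.univ.filter fun l : Bool × Bool => l.1 = false),
    compl_P, sum_P hv hu0 hu1, sum_M hg0 hg1]

lemma mods_L : Mods L.aG L.η () (Finset.univ.filter fun l : Bool × Bool => l.1 = true) where
  on l hl θ := by
    have h := (Finset.mem_filter.1 hl).2
    show αb L.η l.1 (θ ()) = al L.η (θ ())
    rw [h]
    rfl
  off l hl θ r := by
    have h : l.1 = false := by
      have : ¬ l.1 = true := fun h => hl (Finset.mem_filter.2 ⟨Finset.mem_univ _, h⟩)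
      simpa using this
    show αb L.η l.1 (Function.update θ () r ()) = αb L.η l.1 (θ ())
    rw [h]
    rfl

end cf

/-- **The step of the near end.** -/
theorem neL_lt (hl : 0 < L.lam) (hη : 0 ≤ L.η) (hv : 0 < L.vp) (hs : 0 < L.s) (hx : 0 < L.x)
    (hx1 : L.x < 1) (hn : 0 < L.n) {t u g : ℝ} (ht0 : 0 ≤ t) (ht1 : t ≤ 1)
    (hu0 : 0 ≤ u) (hu1 : u < 1) (hg0 : 0 ≤ g) (hg1 : g ≤ 1) {m : ℕ} (hm1 : 1 ≤ m) (hm2 : m < L.n)
    {r0 kp : ℝ} (hkp : kp = 1 - (1 - L.x) * r0) (hc : L.c = L.s ^ 2 * L.n * kp) (hk : 0 < kp)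
    {b2 b0 : ℝ} (hb2 : 0 < b2) (hxK : L.x ≤ H355.cK b2 / 4)
    (hbb2 : L.b ^ 2 + (1 + L.η) ^ 2 * (L.vp + L.s ^ 2) ≤ b2) (hb0 : 0 ≤ b0)
    (hxb : L.x * b0 ≤ 1 / 4) (hbb : b2 ≤ b0 ^ 2) {K ε κ h X rk rr V U G I g4 : ℝ}
    (N : NeNum K (H355.cK b2) ε κ h L.x L.η r0 (L.lam / (L.s ^ 2 * L.n)) m X (stL L t u g) rk rr V)
    (hU0 : 0 ≤ U) (hU : U ^ 2 ≤ κ * h)
    (hR : ∀ S : Finset (Fin L.n), r2L L S t u g ≤ (L.n * U) ^ 2)
    (hX : x2L L (Sn L.n m) t u g ≤ (L.n : ℝ) ^ 2 * X)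
    (hrk : rkL L (Sn L.n m) t u g ≤ (L.n : ℝ) ^ 2 * rk)
    (hQ4 : q4L L (Sn L.n m) t u g ≤ (L.n : ℝ) ^ 4 * g4) (hG0 : 0 ≤ G)
    (hG4 : 2 * (L.b ^ 2 * t) ^ 4 * g4 + 2 * (u * L.vp) ^ 4 ≤ G ^ 2) (hG : G ≤ κ * h)
    (hpb : 22 * κ * √(pbN b2 L.n m (L.vp * (1 - u)) L.η L.s L.vp) ≤ 1)
    (hI : ∀ i0 : Fin L.n, i0.1 + m = L.n → icL L (Sn L.n m) i0 t u g ≤ I)
    (hI' : I / (L.n - m) ≤ ε * (h * √h)) (hrr : L.n / (L.n - m) - (L.b * kp) ^ 2 * t ≤ rr)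
    (hkpK : kp ≤ K) (hb0K : 48 * b0 ^ 2 + 6 ≤ K) (hbt : L.b ^ 2 * t ≤ K) (hvV : u * L.vp ≤ V)
    (hKb : 1 ≤ K * (L.b ^ 2 * t)) :
    y2L L (Sn L.n m) t u g < h := by
  by_contra hcon
  push Not at hcon
  have hn0 : (0 : ℝ) < L.n := by exact_mod_cast hn
  have hmn : (m : ℝ) < L.n := by exact_mod_cast hm2
  have hcard : ((Sn L.n m).card : ℝ) = L.n - m := H698.card_Sn hm2.le
  have hcardc : (((Sn L.n m)ᶜ).card : ℝ) = m := by
    have h1 := Finset.card_add_card_compl (Sn L.n m)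
    rw [Fintype.card_fin] at h1
    have h2 : ((Sn L.n m).card : ℝ) + ((Sn L.n m)ᶜ).card = L.n := by exact_mod_cast h1
    linarith
  have hA := amU_aG L hη
  have hr : Measurable fun θ : Unit → ℝ => al L.η (θ ()) :=
    (measurable_al L.η).comp (measurable_pi_apply ())
  have hrη : ∀ θ : Unit → ℝ, |al L.η (θ ()) - 1| ≤ L.η := fun θ => abs_al_sub hη (θ ())
  have hνf := nuL_fin L hl hη
  have hνn := nuL_ne L hl hη
  -- the first hidden site
  have hi0 : L.n - m < L.n := by omega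
  have hi0S : (⟨L.n - m, hi0⟩ : Fin L.n) ∉ Sn L.n m := by
    simp only [Sn, Finset.mem_filter, Finset.mem_univ, true_and]
    omega
  have hSn : (Sn L.n m).Nonempty := by
    refine ⟨⟨0, hn⟩, ?_⟩
    simp only [Sn, Finset.mem_filter, Finset.mem_univ, true_and]
    omega
  have hI0 := hI ⟨L.n - m, hi0⟩ (by show L.n - m + m = L.n; omega)
  -- the mean of `|M|²`
  have hQ2 := QsU_sq (n := L.n) (b := L.b) (cB := cbU t) (cF := L.cfg u g) (x := L.x)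
    hνf hνn hA hr hrη (KL L (Sn L.n m)) (Sn L.n m)
  have hY2 := Y2U_ge (n := L.n) (b := L.b) (cB := cbU t) (cF := L.cfg u g) (x := L.x)
    hνf hνn hA hr hrη (KL L (Sn L.n m)) (Sn L.n m) (τ := L.b ^ 2 / L.n * t) (v := u * L.vp)
    (by positivity) (by positivity)
  have hQ0 := QsU_nonneg (n := L.n) (b := L.b) (cB := cbU t) (cF := L.cfg u g) (x := L.x)
    hνf hνn hA hr hrη (KL L (Sn L.n m)) (Sn L.n m)
  set Q := QsU L.n L.nuL L.b (cbU t) (L.cfg u g) L.aG L.x (KL L (Sn L.n m))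
    (fun θ => al L.η (θ ())) (Sn L.n m) with hQd
  set h2 := y2L L (Sn L.n m) t u g with hh2
  have hh20 : 0 < h2 := lt_of_lt_of_le N.h0 hcon
  have hbt0 : 0 ≤ L.b ^ 2 * t := mul_nonneg (sq_nonneg _) ht0
  have hq1 : (L.b ^ 2 * t * (Q / L.n)) ^ 2 ≤ h2 := by
    calc (L.b ^ 2 * t * (Q / L.n)) ^ 2 = (L.b ^ 2 / L.n * t) ^ 2 * Q ^ 2 := by
          field_simp
      _ ≤ (L.b ^ 2 / L.n * t) ^ 2 * m4L L (Sn L.n m) t u g :=
          mul_le_mul_of_nonneg_left hQ2 (sq_nonneg _)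
      _ ≤ _ := hY2
  have hq2 : L.b ^ 2 * t * (Q / L.n) ≤ √h2 := Real.le_sqrt_of_sq_le hq1
  have hK1 := N.K1
  have hq3 : Q / L.n ≤ K * √h2 := by
    have h1 : 0 ≤ Q / L.n := by positivity
    calc Q / L.n = 1 * (Q / L.n) := (one_mul _).symm
      _ ≤ K * (L.b ^ 2 * t) * (Q / L.n) := mul_le_mul_of_nonneg_right hKb h1
      _ = K * (L.b ^ 2 * t * (Q / L.n)) := by ring
      _ ≤ K * √h2 := mul_le_mul_of_nonneg_left hq2 (by linarith)
  -- the bad event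
  have hκ0 : 0 ≤ κ := by linarith [N.κ1]
  have hG' : 11 * G * √(pbN b2 L.n m (L.vp * (1 - u)) L.η L.s L.vp) ≤ h2 / 2 := by
    have h1 : 0 ≤ √(pbN b2 L.n m (L.vp * (1 - u)) L.η L.s L.vp) := Real.sqrt_nonneg _
    have h3 := N.h0
    calc 11 * G * √(pbN b2 L.n m (L.vp * (1 - u)) L.η L.s L.vp) ≤
          11 * (κ * h) * √(pbN b2 L.n m (L.vp * (1 - u)) L.η L.s L.vp) := by gcongr
      _ = (22 * κ * √(pbN b2 L.n m (L.vp * (1 - u)) L.η L.s L.vp)) * (h / 2) := by ring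
      _ ≤ 1 * (h / 2) := mul_le_mul_of_nonneg_right hpb (by linarith)
      _ ≤ h2 / 2 := by linarith
  have hcf : 0 < L.vp * (1 - u) := mul_pos hv (by linarith)
  have hcf2 : L.cfg u g (false, false) ^ 2 = L.vp * (1 - u) := cfg_ff hv.le hu0 hu1.le
  have habs : |L.cfg u g (false, false)| = √(L.vp * (1 - u)) := by
    rw [← hcf2, Real.sqrt_sq_eq_abs]
  have hc0 : L.cfg u g (false, false) ≠ 0 := by
    intro h0
    rw [h0, zero_pow two_ne_zero] at hcf2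
    exact hcf.ne hcf2
  have hK3 : 0 < H355.cK b2 := H355.cK_pos hb2
  have key := ne_Un (n := L.n) (Gt := Unit) (lam := fun _ => L.lam) (c := fun _ => L.c)
    (fun _ => hl) L.b (cbU t) (L.cfg u g) (a := L.aG) (η := L.η) hA N.η1 (g0 := ())
    (Lm := Finset.univ.filter fun l : Bool × Bool => l.1 = true) mods_L (x := L.x) hx.le hx1
    (s2 := L.s ^ 2) (sum_M hg0 hg1) (by positivity) (r0 := r0) (kp := kp) hkp hc hk
    (S := Sn L.n m) hSn (i0 := ⟨L.n - m, hi0⟩) hi0S {true} (FLU Bool)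
    (P := Finset.univ.filter fun l : Bool × Bool => l.1 = false)
    (fun l hl θ => by
      have h := (Finset.mem_filter.1 hl).2
      show αb L.η l.1 (θ ()) = 1
      rw [h]
      rfl)
    (l0 := (false, false)) (by decide) hc0 (by decide) hb2 hxK
    (by
      rw [sum_all hv.le hu0 hu1.le hg0 hg1, Fintype.sum_bool, (cbU_sq ht0 ht1).1,
        (cbU_sq ht0 ht1).2]
      have : t + (1 - t) = 1 := by ring
      rw [this, mul_one]
      exact hbb2)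
    hb0 hxb hbb (t := t) (v := u * L.vp)
    (by rw [Finset.sum_singleton, (cbU_sq ht0 ht1).1])
    (by rw [inter_P, Finset.sum_singleton, cfg_ft hv.le hu0 hu1.le]; ring)
    (q := Q / L.n) (I := I) (cc := U) (cS := U) (X := X) (rk := rk) (h2 := h2) (g4 := g4)
    (G := G) (A := h2 / 2)
    (by rw [mul_div_cancel₀ _ hn0.ne']; rfl) hI0 hU0 (hR Finset.univ) hU0 (hR (Sn L.n m)) hX hrk
    rfl hG0 hQ4 hG4 (by positivity)
    (by
      rw [hcardc, habs, compl_P, sum_P hv.le hu0 hu1.le, sum_M hg0 hg1, Real.sqrt_sq hs.le]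
      have : pbN b2 L.n m (L.vp * (1 - u)) L.η L.s L.vp = 32 / H355.cK b2 * (1 / √(m : ℝ) +
        (1 / (√(L.vp * (1 - u)) * √(L.n : ℝ)) + 2 * L.η * L.s / √L.vp)) := rfl
      rw [← this]
      linarith)
  rw [hcard, hcardc] at key
  have hlt := ne_abs N (h2 := h2) (b := L.b) (kp := kp) (t := t) (v := u * L.vp)
    (rho := L.n / (L.n - m)) (q := Q / L.n) (Im := I / (L.n - m)) (cc := U) (cS := U) (U := U)
    (G := G) (b0 := b0) hcon hk.le hkpK hb0K ht0 hbt hvV hrr hI' (by positivity) hq3 hU0 le_rfl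
    hU0 le_rfl hU hG0 hG
  exact absurd key (not_le.2 hlt)

end Vale.Agent.P146.H757
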